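import Mathlib

/-!
# P219, curvature `-1`: kernels `η(r,c) = E r + b r c`, `b ≤ 0`

`BL r m p`, `m = (c+c')/2`, `p = c c'`, is a lower bound for the pair kernel, affine in `p`.
-/

namespace Vale.Agent.Lib.P219.Lin

open Set

/-- lower bound of the pair kernel, `m = (c+c')/2`, `p = c c'` -/
noncomputable def BL (n : ℕ) (R a : ℝ) (E E1 b b1 : ℝ → ℝ) (r m p : ℝ) : ℝ :=
  a + E1 r * (1 - 2 * m ^ 2 + p) + b1 r * (m * (1 - p))
    + E r * (Real.cosh r / Real.sinh r) * (n - 2 + 2 * m ^ 2 - p)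
    + b r * (Real.cosh r / Real.sinh r) * (m * (n - 2 + p))
    - (n - 1) * (Real.cosh R / Real.sinh R) * (E r * m + b r * p)
    + b r / Real.sinh r * (m * (1 - p))

/-- derivative of `BL` in `r` -/
noncomputable def BLr (n : ℕ) (R : ℝ) (E E1 E2 b b1 b2 : ℝ → ℝ) (r m p : ℝ) : ℝ :=
  E2 r * (1 - 2 * m ^ 2 + p) + b2 r * (m * (1 - p))
    + (E1 r * (Real.cosh r / Real.sinh r) - E r / Real.sinh r ^ 2) * (n - 2 + 2 * m ^ 2 - p)
    + (b1 r * (Real.cosh r / Real.sinh r) - b r / Real.sinh r ^ 2) * (m * (n - 2 + p))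
    - (n - 1) * (Real.cosh R / Real.sinh R) * (E1 r * m + b1 r * p)
    + (b1 r / Real.sinh r - b r * Real.cosh r / Real.sinh r ^ 2) * (m * (1 - p))

theorem sqrt_le_one_sub {c c' : ℝ} (hc : c ^ 2 ≤ 1) (hc' : c' ^ 2 ≤ 1) (h : 0 ≤ 1 - c * c') :
    √((1 - c ^ 2) * (1 - c' ^ 2)) ≤ 1 - c * c' := by
  refine Real.sqrt_le_iff.2 ⟨h, ?_⟩
  nlinarith [sq_nonneg (c - c')]

/-- the true pair kernel (visible pairs) is at least `BL` -/
theorem BL_le {n : ℕ} {R a : ℝ} {E E1 b b1 : ℝ → ℝ} {r c c' : ℝ} (hr : 0 < r) (hb : b r ≤ 0)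
    (hc : 0 ≤ c) (hc1 : c ≤ 1) (hc' : 0 ≤ c') (hc1' : c' ≤ 1) :
    BL n R a E E1 b b1 r ((c + c') / 2) (c * c') ≤
      a + (((E1 r + b1 r * c') * (1 - c ^ 2)
          + (E r + b r * c') * (Real.cosh r / Real.sinh r) * (n - 2 + c ^ 2)
          - |c| * |b r| * √((1 - c ^ 2) * (1 - c' ^ 2)) / Real.sinh r
          - (n - 1) * (Real.cosh R / Real.sinh R) * c * (E r + b r * c'))
        + ((E1 r + b1 r * c) * (1 - c' ^ 2)
          + (E r + b r * c) * (Real.cosh r / Real.sinh r) * (n - 2 + c' ^ 2)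
          - |c'| * |b r| * √((1 - c' ^ 2) * (1 - c ^ 2)) / Real.sinh r
          - (n - 1) * (Real.cosh R / Real.sinh R) * c' * (E r + b r * c))) / 2 := by
  have hs : 0 < Real.sinh r := Real.sinh_pos_iff.2 hr
  have e1 : (1 - c' ^ 2) * (1 - c ^ 2) = (1 - c ^ 2) * (1 - c' ^ 2) := by ring
  rw [e1, abs_of_nonneg hc, abs_of_nonneg hc', abs_of_nonpos hb]
  have h1 := sqrt_le_one_sub (c := c) (c' := c') (by nlinarith) (by nlinarith) (by nlinarith)
  set q := √((1 - c ^ 2) * (1 - c' ^ 2)) with hq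
  have h2 : 0 ≤ (c + c') / 2 * (-b r) * (1 - c * c' - q) / Real.sinh r := by
    refine div_nonneg (mul_nonneg (mul_nonneg (by positivity) (by linarith)) (by linarith)) hs.le
  have h3 : a + (((E1 r + b1 r * c') * (1 - c ^ 2)
          + (E r + b r * c') * (Real.cosh r / Real.sinh r) * (n - 2 + c ^ 2)
          - c * (-b r) * q / Real.sinh r
          - (n - 1) * (Real.cosh R / Real.sinh R) * c * (E r + b r * c'))
        + ((E1 r + b1 r * c) * (1 - c' ^ 2)
          + (E r + b r * c) * (Real.cosh r / Real.sinh r) * (n - 2 + c' ^ 2)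
          - c' * (-b r) * q / Real.sinh r
          - (n - 1) * (Real.cosh R / Real.sinh R) * c' * (E r + b r * c))) / 2
      = BL n R a E E1 b b1 r ((c + c') / 2) (c * c')
        + (c + c') / 2 * (-b r) * (1 - c * c' - q) / Real.sinh r := by
    unfold BL
    field_simp
    ring
  rw [h3]
  linarith

/-- the true pair kernel (compensating pairs) is at least an algebraic expression -/
theorem BL_le' {n : ℕ} {R a : ℝ} {E E1 b b1 : ℝ → ℝ} {r γ c' : ℝ} (hr : 0 < r) (hb : b r ≤ 0)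
    (hc : 0 ≤ γ) (hc1 : γ ≤ 1) (hc' : 0 ≤ c') (hc1' : c' ≤ 1) :
    a + E1 r * (1 - (γ ^ 2 + c' ^ 2) / 2) + b1 r / 2 * ((c' - γ) * (1 + γ * c'))
      + E r * (Real.cosh r / Real.sinh r) * (n - 2 + (γ ^ 2 + c' ^ 2) / 2)
      + b r * (Real.cosh r / Real.sinh r) / 2 * ((c' - γ) * (n - 2 - γ * c'))
      - (n - 1) * (Real.cosh R / Real.sinh R) / 2 * (E r * (c' - γ) - 2 * b r * (γ * c'))
      + b r / Real.sinh r / 2 * ((γ + c') * (1 - γ * c')) ≤
      a + (((E1 r + b1 r * c') * (1 - γ ^ 2)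
          + (E r + b r * c') * (Real.cosh r / Real.sinh r) * (n - 2 + γ ^ 2)
          - |γ| * |b r| * √((1 - γ ^ 2) * (1 - c' ^ 2)) / Real.sinh r
          + (n - 1) * (Real.cosh R / Real.sinh R) * γ * (E r + b r * c'))
        + ((E1 r + b1 r * (-γ)) * (1 - c' ^ 2)
          + (E r + b r * (-γ)) * (Real.cosh r / Real.sinh r) * (n - 2 + c' ^ 2)
          - |c'| * |b r| * √((1 - c' ^ 2) * (1 - γ ^ 2)) / Real.sinh r
          - (n - 1) * (Real.cosh R / Real.sinh R) * c' * (E r + b r * (-γ)))) / 2 := by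
  have hs : 0 < Real.sinh r := Real.sinh_pos_iff.2 hr
  have e1 : (1 - c' ^ 2) * (1 - γ ^ 2) = (1 - γ ^ 2) * (1 - c' ^ 2) := by ring
  rw [e1, abs_of_nonneg hc, abs_of_nonneg hc', abs_of_nonpos hb]
  have h1 := sqrt_le_one_sub (c := γ) (c' := c') (by nlinarith) (by nlinarith) (by nlinarith)
  set q := √((1 - γ ^ 2) * (1 - c' ^ 2)) with hq
  have h2 : 0 ≤ (γ + c') / 2 * (-b r) * (1 - γ * c' - q) / Real.sinh r := by
    refine div_nonneg (mul_nonneg (mul_nonneg (by positivity) (by linarith)) (by linarith)) hs.le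
  have h3 : a + (((E1 r + b1 r * c') * (1 - γ ^ 2)
          + (E r + b r * c') * (Real.cosh r / Real.sinh r) * (n - 2 + γ ^ 2)
          - γ * (-b r) * q / Real.sinh r
          + (n - 1) * (Real.cosh R / Real.sinh R) * γ * (E r + b r * c'))
        + ((E1 r + b1 r * (-γ)) * (1 - c' ^ 2)
          + (E r + b r * (-γ)) * (Real.cosh r / Real.sinh r) * (n - 2 + c' ^ 2)
          - c' * (-b r) * q / Real.sinh r
          - (n - 1) * (Real.cosh R / Real.sinh R) * c' * (E r + b r * (-γ)))) / 2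
      = a + E1 r * (1 - (γ ^ 2 + c' ^ 2) / 2) + b1 r / 2 * ((c' - γ) * (1 + γ * c'))
      + E r * (Real.cosh r / Real.sinh r) * (n - 2 + (γ ^ 2 + c' ^ 2) / 2)
      + b r * (Real.cosh r / Real.sinh r) / 2 * ((c' - γ) * (n - 2 - γ * c'))
      - (n - 1) * (Real.cosh R / Real.sinh R) / 2 * (E r * (c' - γ) - 2 * b r * (γ * c'))
      + b r / Real.sinh r / 2 * ((γ + c') * (1 - γ * c'))
        + (γ + c') / 2 * (-b r) * (1 - γ * c' - q) / Real.sinh r := by
    field_simp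
    ring
  rw [h3]
  linarith

/-- an affine function of `p = c c'` is nonnegative if it is so on the diagonal and on the edges -/
theorem affine_p {A B c c' : ℝ} (hc : 0 ≤ c) (hc1 : c ≤ 1) (hc' : 0 ≤ c') (hc1' : c' ≤ 1)
    (hd : 0 ≤ A + B * ((c + c') / 2) ^ 2)
    (h0 : c + c' ≤ 1 → 0 ≤ A)
    (h1 : 1 ≤ c + c' → 0 ≤ A + B * (c + c' - 1)) : 0 ≤ A + B * (c * c') := by
  have hp2 : c * c' ≤ ((c + c') / 2) ^ 2 := by nlinarith [sq_nonneg (c - c')]
  have hp0 : 0 ≤ c * c' := mul_nonneg hc hc'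
  have hp1 : c + c' - 1 ≤ c * c' := by nlinarith
  rcases le_or_gt 0 B with hB | hB
  · rcases le_total (c + c') 1 with h | h
    · have := h0 h
      have := mul_nonneg hB hp0
      linarith
    · have := h1 h
      have := mul_le_mul_of_nonneg_left hp1 hB
      linarith
  · have := mul_le_mul_of_nonpos_left hp2 hB.le
    linarith

end Vale.Agent.Lib.P219.Lin
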