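import Mathlib.Algebra.Order.Star.Real
import Mathlib.Analysis.InnerProductSpace.Basic
import Mathlib.Analysis.SpecialFunctions.Trigonometric.DerivHyp
import Mathlib.Topology.Algebra.Module.ModuleTopology

/-!
# P219, curvature `-1`: the family `η(r,c) = x q(w) + Y(w) (T c - x)`

`w = 1/cosh (r/2)`, `x = tanh (r/2)`.
-/

namespace Vale.Agent.Lib.P219.Lin

open Set Filter Topology

/-- `1 / cosh (r/2)` -/
noncomputable def wf (r : ℝ) : ℝ := 1 / Real.cosh (r / 2)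

/-- `tanh (r/2)` -/
noncomputable def xf (r : ℝ) : ℝ := Real.tanh (r / 2)

theorem xf_eq (r : ℝ) : xf r = Real.sinh (r / 2) / Real.cosh (r / 2) := Real.tanh_eq_sinh_div_cosh _

theorem wf_pos (r : ℝ) : 0 < wf r := one_div_pos.2 (Real.cosh_pos _)

theorem xf_pos {r : ℝ} (hr : 0 < r) : 0 < xf r := by
  rw [xf_eq]
  exact div_pos (Real.sinh_pos_iff.2 (by linarith)) (Real.cosh_pos _)

theorem xf_sq_add_wf_sq (r : ℝ) : xf r ^ 2 + wf r ^ 2 = 1 := by
  rw [xf_eq, wf]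
  have := Real.cosh_pos (r / 2)
  have h := Real.cosh_sq (r / 2)
  field_simp
  linarith

theorem wf_lt_one {r : ℝ} (hr : 0 < r) : wf r < 1 := by
  have h1 := xf_sq_add_wf_sq r
  have h2 := xf_pos hr
  have h3 := wf_pos r
  nlinarith

theorem xf_lt_one (r : ℝ) : xf r < 1 := by
  have h1 := xf_sq_add_wf_sq r
  have h3 := wf_pos r
  nlinarith

theorem hasDerivAt_wf (r : ℝ) : HasDerivAt wf (-(xf r * wf r / 2)) r := by
  have h1 : HasDerivAt (fun s : ℝ => s / 2) (1 / 2) r := (hasDerivAt_id r).div_const 2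
  have h2 := (Real.hasDerivAt_cosh (r / 2)).comp r h1
  have h3 := h2.inv (Real.cosh_pos _).ne'
  have h4 : HasDerivAt wf (-(Real.sinh (r / 2) * (1 / 2)) / (Real.cosh (r / 2)) ^ 2) r := by
    refine h3.congr_of_eventuallyEq (Eventually.of_forall fun s => ?_)
    simp [wf]
  refine h4.congr_deriv ?_
  rw [xf_eq, wf]
  have := (Real.cosh_pos (r / 2)).ne'
  field_simp

theorem hasDerivAt_xf (r : ℝ) : HasDerivAt xf (wf r ^ 2 / 2) r := by
  have h1 : HasDerivAt (fun s : ℝ => s / 2) (1 / 2) r := (hasDerivAt_id r).div_const 2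
  have h2 := (Real.hasDerivAt_sinh (r / 2)).comp r h1
  have h3 := (Real.hasDerivAt_cosh (r / 2)).comp r h1
  have h4 := h2.div h3 (Real.cosh_pos _).ne'
  have h5 : HasDerivAt xf ((Real.cosh (r / 2) * (1 / 2) * Real.cosh (r / 2)
      - Real.sinh (r / 2) * (Real.sinh (r / 2) * (1 / 2))) / Real.cosh (r / 2) ^ 2) r := by
    refine h4.congr_of_eventuallyEq (Eventually.of_forall fun s => ?_)
    simp [xf_eq, Function.comp_def]
  refine h5.congr_deriv ?_
  rw [wf]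
  have := (Real.cosh_pos (r / 2)).ne'
  have h := Real.cosh_sq (r / 2)
  field_simp
  nlinarith

theorem continuous_wf : Continuous wf :=
  continuous_iff_continuousAt.2 fun r => (hasDerivAt_wf r).continuousAt

theorem continuous_xf : Continuous xf :=
  continuous_iff_continuousAt.2 fun r => (hasDerivAt_xf r).continuousAt

theorem sinh_eq_xf (r : ℝ) : Real.sinh r = 2 * xf r / wf r ^ 2 := by
  have h : Real.sinh r = 2 * Real.sinh (r / 2) * Real.cosh (r / 2) := by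
    rw [← Real.sinh_two_mul]
    ring_nf
  rw [h, xf_eq, wf]
  have := (Real.cosh_pos (r / 2)).ne'
  field_simp

theorem cosh_eq_xf (r : ℝ) : Real.cosh r = (1 + xf r ^ 2) / wf r ^ 2 := by
  have h : Real.cosh r = Real.cosh (r / 2) ^ 2 + Real.sinh (r / 2) ^ 2 := by
    rw [← Real.cosh_two_mul]
    ring_nf
  rw [h, xf_eq, wf]
  have := (Real.cosh_pos (r / 2)).ne'
  field_simp

theorem coth_eq_xf {r : ℝ} (hr : 0 < r) :
    Real.cosh r / Real.sinh r = (1 + xf r ^ 2) / (2 * xf r) := by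
  rw [sinh_eq_xf, cosh_eq_xf]
  have := (wf_pos r).ne'
  have := (xf_pos hr).ne'
  field_simp

section

variable (T : ℝ) (q q1 Y Y1 : ℝ → ℝ)

/-- `η` -/
noncomputable def eta (r c : ℝ) : ℝ := xf r * q (wf r) + Y (wf r) * (T * c - xf r)

/-- `∂η/∂r` -/
noncomputable def etar (r c : ℝ) : ℝ :=
  wf r ^ 2 / 2 * q (wf r) - xf r ^ 2 * wf r / 2 * q1 (wf r)
    - xf r * wf r / 2 * Y1 (wf r) * (T * c - xf r) - Y (wf r) * (wf r ^ 2 / 2)

/-- `∂η/∂c` -/
noncomputable def etac (r _c : ℝ) : ℝ := Y (wf r) * T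

end

variable {T : ℝ} {q q1 Y Y1 : ℝ → ℝ}

theorem eta_deriv_r (hq : ∀ w, 0 < w → w < 1 → HasDerivAt q (q1 w) w)
    (hY : ∀ w, 0 < w → w < 1 → HasDerivAt Y (Y1 w) w) (r c : ℝ) (hr : 0 < r) :
    HasDerivAt (fun s => eta T q Y s c) (etar T q q1 Y Y1 r c) r := by
  have h1 := (hq _ (wf_pos r) (wf_lt_one hr)).comp r (hasDerivAt_wf r)
  have h2 := (hY _ (wf_pos r) (wf_lt_one hr)).comp r (hasDerivAt_wf r)
  have h3 := (hasDerivAt_xf r).mul h1
  have h4 := h2.mul ((hasDerivAt_xf r).const_sub (T * c))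
  refine (h3.add h4).congr_deriv ?_
  simp only [etar, Function.comp_apply]
  ring

theorem eta_deriv_c (r c : ℝ) :
    HasDerivAt (fun s => eta T q Y r s) (etac T Y r c) c := by
  have h1 : HasDerivAt (fun s : ℝ => T * s - xf r) T c := by
    simpa using ((hasDerivAt_id c).const_mul T).sub_const (xf r)
  exact (h1.const_mul (Y (wf r))).const_add (xf r * q (wf r))

theorem contDiffOn_comp_wf (hq : ∀ w, 0 < w → w < 1 → HasDerivAt q (q1 w) w)
    (hq1 : ContinuousOn q1 (Ioo 0 1)) : ContDiffOn ℝ 1 (fun r => q (wf r)) (Ioi 0) := by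
  have hd : ∀ r ∈ Ioi (0 : ℝ), HasDerivAt (fun r => q (wf r)) (q1 (wf r) * -(xf r * wf r / 2)) r :=
    fun r hr => (hq _ (wf_pos r) (wf_lt_one hr)).comp r (hasDerivAt_wf r)
  rw [contDiffOn_one_iff_derivWithin (uniqueDiffOn_Ioi 0)]
  refine ⟨fun r hr => (hd r hr).differentiableAt.differentiableWithinAt, ?_⟩
  have h1 : ContinuousOn (fun r => q1 (wf r) * -(xf r * wf r / 2)) (Ioi 0) := by
    refine ContinuousOn.mul (hq1.comp continuous_wf.continuousOn fun r hr =>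
      ⟨wf_pos r, wf_lt_one hr⟩) ?_
    exact (((continuous_xf.mul continuous_wf).div_const 2).neg).continuousOn
  refine h1.congr fun r hr => ?_
  rw [(hd r hr).hasDerivWithinAt.derivWithin (uniqueDiffOn_Ioi 0 r hr)]

theorem contDiff_xf : ContDiff ℝ 1 xf := by
  rw [contDiff_one_iff_deriv]
  refine ⟨fun r => (hasDerivAt_xf r).differentiableAt, ?_⟩
  have : deriv xf = fun r => wf r ^ 2 / 2 := funext fun r => (hasDerivAt_xf r).deriv
  rw [this]
  exact (continuous_wf.pow 2).div_const 2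

theorem eta_smooth (hq : ∀ w, 0 < w → w < 1 → HasDerivAt q (q1 w) w)
    (hq1 : ContinuousOn q1 (Ioo 0 1))
    (hY : ∀ w, 0 < w → w < 1 → HasDerivAt Y (Y1 w) w) (hY1 : ContinuousOn Y1 (Ioo 0 1)) :
    ContDiffOn ℝ 1 (fun p : ℝ × ℝ => eta T q Y p.1 p.2) (Ioi 0 ×ˢ univ) := by
  have hf : MapsTo (Prod.fst : ℝ × ℝ → ℝ) (Ioi 0 ×ˢ univ) (Ioi 0) := fun p hp => hp.1
  have h1 := (contDiffOn_comp_wf hq hq1).comp contDiff_fst.contDiffOn hf
  have h2 := (contDiffOn_comp_wf hY hY1).comp contDiff_fst.contDiffOn hf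
  have h3 : ContDiffOn ℝ 1 (fun p : ℝ × ℝ => xf p.1) (Ioi 0 ×ˢ univ) :=
    (contDiff_xf.comp contDiff_fst).contDiffOn
  have h4 : ContDiffOn ℝ 1 (fun p : ℝ × ℝ => T * p.2 - xf p.1) (Ioi 0 ×ˢ univ) :=
    ((contDiff_const.mul contDiff_snd).contDiffOn).sub h3
  exact (h3.mul h1).add (h2.mul h4)

theorem eta_bound {M : ℝ} (hqM : ∀ w, 0 < w → w < 1 → |q w| ≤ M) (hq1M : ∀ w, 0 < w → w < 1 → |q1 w| ≤ M)
    (hYM : ∀ w, 0 < w → w < 1 → |Y w| ≤ M) (hY1M : ∀ w, 0 < w → w < 1 → |Y1 w| ≤ M)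
    (hT : 0 ≤ T) (hT1 : T ≤ 1) {r c : ℝ} (hr : 0 < r) (hc : |c| ≤ 1) :
    eta T q Y r c ≤ 3 * M ∧ |etar T q q1 Y Y1 r c| ≤ 3 * M ∧ |etac T Y r c| ≤ 3 * M := by
  have hw0 := wf_pos r
  have hw1 := wf_lt_one hr
  have hx0 := xf_pos hr
  have hx1 := xf_lt_one r
  have a1 := hqM _ hw0 hw1
  have a2 := hq1M _ hw0 hw1
  have a3 := hYM _ hw0 hw1
  have a4 := hY1M _ hw0 hw1
  have hM : 0 ≤ M := (abs_nonneg _).trans a1
  have b1 : |T * c - xf r| ≤ 2 := by
    have : |T * c| ≤ 1 := by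
      rw [abs_mul, abs_of_nonneg hT]
      calc T * |c| ≤ 1 * 1 := mul_le_mul hT1 hc (abs_nonneg _) zero_le_one
        _ = 1 := one_mul 1
    calc |T * c - xf r| ≤ |T * c| + |xf r| := abs_sub _ _
      _ ≤ 1 + 1 := by
        rw [abs_of_pos hx0]
        linarith
      _ = 2 := by norm_num
  have bw : |wf r| ≤ 1 := by rw [abs_of_pos hw0]; exact hw1.le
  have bx : |xf r| ≤ 1 := by rw [abs_of_pos hx0]; exact hx1.le
  have m1 : ∀ {u v A B : ℝ}, |u| ≤ A → |v| ≤ B → |u * v| ≤ A * B := fun {u v A B} hu hv => by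
    rw [abs_mul]
    exact mul_le_mul hu hv (abs_nonneg _) ((abs_nonneg _).trans hu)
  refine ⟨?_, ?_, ?_⟩
  · refine (le_abs_self _).trans ?_
    unfold eta
    calc |xf r * q (wf r) + Y (wf r) * (T * c - xf r)|
        ≤ |xf r * q (wf r)| + |Y (wf r) * (T * c - xf r)| := abs_add_le _ _
      _ ≤ 1 * M + M * 2 := add_le_add (m1 bx a1) (m1 a3 b1)
      _ = 3 * M := by ring
  · unfold etar
    have e1 : |wf r ^ 2 / 2 * q (wf r)| ≤ 1 / 2 * M := by
      refine m1 ?_ a1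
      rw [abs_of_pos (by positivity)]
      nlinarith
    have e2 : |xf r ^ 2 * wf r / 2 * q1 (wf r)| ≤ 1 / 2 * M := by
      refine m1 ?_ a2
      rw [abs_of_pos (by positivity)]
      have : xf r ^ 2 * wf r ≤ 1 * 1 := mul_le_mul (by nlinarith) hw1.le hw0.le zero_le_one
      linarith
    have e3 : |xf r * wf r / 2 * Y1 (wf r) * (T * c - xf r)| ≤ 1 / 2 * M * 2 := by
      refine m1 (m1 ?_ a4) b1
      rw [abs_of_pos (by positivity)]
      have : xf r * wf r ≤ 1 * 1 := mul_le_mul hx1.le hw1.le hw0.le zero_le_one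
      linarith
    have e4 : |Y (wf r) * (wf r ^ 2 / 2)| ≤ M * (1 / 2) := by
      refine m1 a3 ?_
      rw [abs_of_pos (by positivity)]
      nlinarith
    have t1 := abs_sub (wf r ^ 2 / 2 * q (wf r) - xf r ^ 2 * wf r / 2 * q1 (wf r)
      - xf r * wf r / 2 * Y1 (wf r) * (T * c - xf r)) (Y (wf r) * (wf r ^ 2 / 2))
    have t2 := abs_sub (wf r ^ 2 / 2 * q (wf r) - xf r ^ 2 * wf r / 2 * q1 (wf r))
      (xf r * wf r / 2 * Y1 (wf r) * (T * c - xf r))
    have t3 := abs_sub (wf r ^ 2 / 2 * q (wf r)) (xf r ^ 2 * wf r / 2 * q1 (wf r))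
    linarith
  · unfold etac
    have := m1 a3 (show |T| ≤ 1 by rw [abs_of_nonneg hT]; exact hT1)
    linarith

end Vale.Agent.Lib.P219.Lin
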