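import Mathlib.Analysis.Calculus.Deriv.Basic
import Mathlib.Analysis.Complex.Trigonometric
import Mathlib.Topology.Algebra.Module.ModuleTopology

/-! # P219, curvature `-1`, dimension four: certificates of the linear class

`x = tanh (r/2)`, `w = 1 / cosh (r/2)`, `T = tanh R`, `y = x / T`, so `y^2 T^2 = 1 - w^2`.
`η r c = x q(w) + Y(w) (T c - x)`, `h r = hk * sinh r ^ 3`, `d = 12`.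
`dq = x * (d/dr) q`, i.e. `dq w = - w (1 - w^2) q'(w) / 2`, similarly `ddq`, `dY`, `ddY`. -/

namespace Vale.Agent.Lib.P219.Lin

/-- values of the data at a point -/
structure Pv where
  w : ℝ
  y : ℝ
  a : ℝ
  q : ℝ
  dq : ℝ
  ddq : ℝ
  Y : ℝ
  dY : ℝ
  ddY : ℝ

/-- `α'` where `η = α + β c` -/
noncomputable def Pv.A1 (v : Pv) : ℝ := v.w ^ 2 * (v.q - v.Y) / 2 + (v.dq - v.dY)
/-- `coth r * α` -/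
noncomputable def Pv.KA (v : Pv) : ℝ := (2 - v.w ^ 2) * (v.q - v.Y) / 2
/-- `y * β'` -/
noncomputable def Pv.B1 (v : Pv) : ℝ := v.dY
/-- `y * coth r * β` -/
noncomputable def Pv.KB (v : Pv) : ℝ := (2 - v.w ^ 2) * v.Y / 2
/-- `y * β / sinh r` -/
noncomputable def Pv.GB (v : Pv) : ℝ := v.w ^ 2 * v.Y / 2

/-- `y * B` where `m = (c+c')/2`, `p = c c'` and `ρ` replaces the square root -/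
noncomputable def Pv.B (v : Pv) (m p ρ : ℝ) : ℝ :=
  v.y * (v.a + v.A1 * (1 - 2 * m ^ 2 + p) + v.KA * (2 + 2 * m ^ 2 - p)
    - 3 * (v.y * (v.q - v.Y) * m + v.Y * p))
  + m * (v.B1 * (1 - p) + v.KB * (2 + p) + v.GB * ρ)

/-- `x * (d/dr)` of `A1, KA, B1, KB, GB` -/
noncomputable def Pv.dA1 (v : Pv) : ℝ :=
  - (v.w ^ 2 * (1 - v.w ^ 2)) * (v.q - v.Y) / 2 + v.w ^ 2 * (v.dq - v.dY) / 2 + (v.ddq - v.ddY)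
noncomputable def Pv.dKA (v : Pv) : ℝ :=
  v.w ^ 2 * (1 - v.w ^ 2) * (v.q - v.Y) / 2 + (2 - v.w ^ 2) * (v.dq - v.dY) / 2
noncomputable def Pv.dB1 (v : Pv) : ℝ := v.ddY
noncomputable def Pv.dKB (v : Pv) : ℝ :=
  v.w ^ 2 * (1 - v.w ^ 2) * v.Y / 2 + (2 - v.w ^ 2) * v.dY / 2
noncomputable def Pv.dGB (v : Pv) : ℝ :=
  - (v.w ^ 2 * (1 - v.w ^ 2)) * v.Y / 2 + v.w ^ 2 * v.dY / 2

/-- `y * x * (d/dr) B` -/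
noncomputable def Pv.dB (v : Pv) (m p ρ : ℝ) : ℝ :=
  v.y * (v.dA1 * (1 - 2 * m ^ 2 + p) + v.dKA * (2 + 2 * m ^ 2 - p)
    - 3 * (v.y * (v.w ^ 2 * (v.q - v.Y) / 2 + (v.dq - v.dY)) * m + v.dY * p))
  + m * (v.dB1 * (1 - p) + v.dKB * (2 + p) + v.dGB * ρ)
  - v.w ^ 2 / 2 * (m * (v.B1 * (1 - p) + v.KB * (2 + p) + v.GB * ρ))

/-- `B` on the diagonal `c = c' = y` -/
noncomputable def Pv.b (v : Pv) : ℝ :=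
  v.a + (1 - v.y ^ 2) * (v.w ^ 2 * v.q / 2 + v.dq) + (2 - v.w ^ 2) * v.q * (2 + v.y ^ 2) / 2
    - 3 * v.y ^ 2 * v.q

/-- `x * (d/dr) b` -/
noncomputable def Pv.db (v : Pv) : ℝ :=
  - (v.w ^ 2 * v.y ^ 2) * (v.w ^ 2 * v.q / 2 + v.dq)
  + (1 - v.y ^ 2) * (- (v.w ^ 2 * (1 - v.w ^ 2)) * v.q / 2 + v.w ^ 2 * v.dq / 2 + v.ddq)
  + (v.w ^ 2 * (1 - v.w ^ 2) * v.q + (2 - v.w ^ 2) * v.dq) * (2 + v.y ^ 2) / 2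
  + (2 - v.w ^ 2) * v.q * (v.w ^ 2 * v.y ^ 2) / 2
  - 3 * (v.w ^ 2 * v.y ^ 2) * v.q - 3 * v.y ^ 2 * v.dq

/-- `b - y B_c`; `f' (y) = sinh^3 r * P / y^3 = 8 T^3 P / w^6` -/
noncomputable def Pv.P (v : Pv) : ℝ :=
  v.a + v.A1 + 2 * v.KA + (v.B1 * (1 + v.y ^ 2) + v.KB * (2 - v.y ^ 2)
    - 3 * v.y ^ 2 * (v.q - v.Y) + v.GB * (1 + v.y ^ 2)) / 2

/-- `x * (d/dr) P` -/
noncomputable def Pv.dP (v : Pv) : ℝ :=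
  v.dA1 + 2 * v.dKA + (v.dB1 * (1 + v.y ^ 2) + v.dKB * (2 - v.y ^ 2)
    - 3 * v.y ^ 2 * (v.dq - v.dY) + v.dGB * (1 + v.y ^ 2)) / 2
  + v.w ^ 2 * v.y ^ 2 * (v.B1 - v.KB - 3 * (v.q - v.Y) + v.GB) / 2

/-- `y * η(r,1) / sinh r * 2 / w^2` up to the factor: `y (q - Y) + Y = η(r,1) / T` -/
noncomputable def Pv.E (v : Pv) : ℝ := v.y * (v.q - v.Y) + v.Y

/-- conditions valid for all `y` -/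
structure Pv.OK (v : Pv) (hk : ℝ) : Prop where
  Y_np : v.Y ≤ 0
  eta : 0 ≤ v.E
  n1a : ∀ m : ℝ, 0 ≤ m → m ≤ 1 → 0 ≤ v.B m (m ^ 2) (1 - m) + m ^ 2 * (v.w ^ 2 / 2 * v.E)
  n1b : ∀ m : ℝ, 1 / 2 ≤ m → m ≤ 1 →
    0 ≤ v.B m (2 * m - 1) 0 + (2 * m - 1) * (v.w ^ 2 / 2 * v.E)
      + v.GB * ((1 - m) * m / 2 + (1 - m) ^ 3)
  p2a : ∀ m : ℝ, 0 ≤ m → m ≤ 1 → 0 ≤ v.B m (m ^ 2) (1 - m ^ 2) + m ^ 2 * (hk * v.y)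
  p2b : ∀ m : ℝ, 1 / 2 ≤ m → m ≤ 1 →
    0 ≤ v.B m (2 * m - 1) (2 * m * (1 - m)) + (2 * m - 1) * (hk * v.y)
  p3a : ∀ m : ℝ, 0 ≤ m → m ≤ 1 / 2 → 0 ≤ v.B m 0 0 + v.GB / 2
  p3b : ∀ c : ℝ, 0 ≤ c → c ≤ 1 →
    0 ≤ v.y * (v.a + v.A1 * (1 - c ^ 2 / 2) + v.KA * (2 + c ^ 2 / 2)
        + 3 / 2 * (v.y * (v.q - v.Y) * (1 - c)) + 3 * v.Y * c - hk)
      + v.B1 * (c ^ 2 + c - 1) / 2 - v.KB * (1 + (1 - c) ^ 2) / 2 + v.GB / 2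
  p3c : v.A1 ≤ v.KA
  p3d : v.y * v.A1 + v.B1 ≤ v.y * v.KA + v.KB
  p1a : |v.B1| / 2 ≤ v.y * (v.a + v.A1 + 2 * v.KA) + v.KB + v.GB / 2
  p1b : |v.B1| / 2 ≤ v.y * (v.a + 3 * v.KA) + 3 * v.KB + v.GB / 2

/-- conditions for `y ≤ 1` -/
structure Pv.OKl (v : Pv) (T : ℝ) : Prop where
  stat : v.w ^ 2 * v.P + v.db + (3 - 5 / 2 * v.w ^ 2) * v.b = 3 / 2 * v.w ^ 6 / T ^ 2
  P_nonneg : 0 ≤ v.P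
  conv : 0 ≤ v.dP + 3 * (1 - v.w ^ 2) * v.P
  qa : 0 ≤ v.y * (v.a + v.A1 + 2 * v.KA) + v.y ^ 2 * (- v.B1 + v.KB - v.GB) + 2 * v.P
  qb : ∀ m : ℝ, 1 / 2 ≤ m → m ≤ 1 →
    0 ≤ v.y ^ 2 * ((1 + m) * v.B m (2 * m - 1) 0 + 2 * m ^ 2 * (1 - m) * v.GB)
      + (1 + m) * (2 * m - 1) * (2 * v.P * (m - v.y) - v.y * v.b)

/-- conditions for `1 ≤ y` -/
structure Pv.OKr (v : Pv) : Prop where
  h1 : ∀ m : ℝ, 0 ≤ m → m ≤ 1 → 3 / 2 * m ^ 2 * v.w ^ 6 * v.y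
    ≤ (1 - v.w ^ 2) * (v.dB m (m ^ 2) (1 - m ^ 2)
        + 3 / 2 * (2 - v.w ^ 2) * v.B m (m ^ 2) (1 - m ^ 2))
  h2 : ∀ m : ℝ, 1 / 2 ≤ m → m ≤ 1 → 3 / 2 * (2 * m - 1) * v.w ^ 6 * v.y
    ≤ (1 - v.w ^ 2) * (v.dB m (2 * m - 1) (2 * m * (1 - m) / (1 + m))
        + 3 / 2 * (2 - v.w ^ 2) * v.B m (2 * m - 1) (2 * m * (1 - m) / (1 + m)))
  h3 : ∀ m : ℝ, 0 ≤ m → m ≤ 1 / 2 →
    0 ≤ v.dB m 0 (1 - 2 * m ^ 2) + 3 / 2 * (2 - v.w ^ 2) * v.B m 0 (1 - 2 * m ^ 2)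

/-- a certificate of the linear class for the model ball of radius `R` (dimension four) -/
structure LinCert (R : ℝ) where
  q : ℝ → ℝ
  dq : ℝ → ℝ
  ddq : ℝ → ℝ
  Y : ℝ → ℝ
  dY : ℝ → ℝ
  ddY : ℝ → ℝ
  a : ℝ
  hk : ℝ
  M : ℝ
  a_pos : 0 < a
  hk_nonneg : 0 ≤ hk
  hq : ∀ w : ℝ, 0 < w → w < 1 → HasDerivAt q (-(2 * dq w) / (w * (1 - w ^ 2))) w
  hdq : ∀ w : ℝ, 0 < w → w < 1 → HasDerivAt dq (-(2 * ddq w) / (w * (1 - w ^ 2))) w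
  hY : ∀ w : ℝ, 0 < w → w < 1 → HasDerivAt Y (-(2 * dY w) / (w * (1 - w ^ 2))) w
  hdY : ∀ w : ℝ, 0 < w → w < 1 → HasDerivAt dY (-(2 * ddY w) / (w * (1 - w ^ 2))) w
  bdd : ∀ w : ℝ, 0 < w → w < 1 → |q w| ≤ M ∧ |dq w| ≤ M ∧ |Y w| ≤ M ∧ |dY w| ≤ M
  ok : ∀ w y : ℝ, 0 < w → w < 1 → 0 < y → y ^ 2 * Real.tanh R ^ 2 = 1 - w ^ 2 →
    (Pv.mk w y a (q w) (dq w) (ddq w) (Y w) (dY w) (ddY w)).OK hk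
  okl : ∀ w y : ℝ, 0 < w → w < 1 → 0 < y → y ≤ 1 → y ^ 2 * Real.tanh R ^ 2 = 1 - w ^ 2 →
    (Pv.mk w y a (q w) (dq w) (ddq w) (Y w) (dY w) (ddY w)).OKl (Real.tanh R)
  okr : ∀ w y : ℝ, 0 < w → w < 1 → 1 ≤ y → y ^ 2 * Real.tanh R ^ 2 = 1 - w ^ 2 →
    (Pv.mk w y a (q w) (dq w) (ddq w) (Y w) (dY w) (ddY w)).OKr

end Vale.Agent.Lib.P219.Lin
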