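import Vale.Agent.Lib.P219.K.Lin.LinBasic
import Vale.Agent.Lib.P219.K.Lin.LinAlg

/-!
# P219, curvature `-1`, dimension four: the fields `B_zero`, `B_slope`, `B_comp`, `B_comp'`
-/

namespace Vale.Agent.Lib.P219.Lin

open Set Filter Topology

variable {R : ℝ}

theorem pv_w_sq (C : LinCert R) {r : ℝ} (hr : 0 < r) : (C.pv r).w ^ 2 ≤ 1 := by
  have h1 := wf_pos r
  have h2 := wf_lt_one hr
  change wf r ^ 2 ≤ 1
  nlinarith

theorem LinCert.B_zero (C : LinCert R) (hR : 0 < R) (r c c' : ℝ) (hr : 0 < r) (hc : |c| ≤ 1)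
    (hc' : |c'| ≤ 1) :
    0 ≤ C.a + ((C.ηr r c' * (1 - c ^ 2)
        + C.η r c' * (Real.cosh r / Real.sinh r) * (((4 : ℕ) : ℝ) - 2 + c ^ 2)
        - |c| * |C.ηc r c'| * Real.sqrt ((1 - c ^ 2) * (1 - c' ^ 2)) / Real.sinh r)
      + (C.ηr r c * (1 - c' ^ 2)
        + C.η r c * (Real.cosh r / Real.sinh r) * (((4 : ℕ) : ℝ) - 2 + c' ^ 2)
        - |c'| * |C.ηc r c| * Real.sqrt ((1 - c' ^ 2) * (1 - c ^ 2)) / Real.sinh r)) / 2 := by
  have hy := C.y_pos hR hr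
  have h := zero_core (C.okv hR hr) (pv_w_sq C hr) hc hc'
  have hkey := C.key hR hr (C.Y_nonpos hR hr) c c' |c| |c'| 0 (√((1 - c ^ 2) * (1 - c' ^ 2)))
  have e1 : (1 - c' ^ 2) * (1 - c ^ 2) = (1 - c ^ 2) * (1 - c' ^ 2) := by ring
  rw [e1]
  have h2 := h
  rw [← hkey] at h2
  have h3 := nonneg_of_mul_nonneg_right h2 hy
  refine h3.trans (le_of_eq ?_)
  push_cast
  ring

/-- `y` times the true kernel for visible pairs -/
theorem LinCert.key_vis (C : LinCert R) (hR : 0 < R) {r : ℝ} (hr : 0 < r) {c c' : ℝ}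
    (hc : 0 ≤ c) (hc' : 0 ≤ c') :
    (C.pv r).y * (C.a + ((C.ηr r c' * (1 - c ^ 2)
        + C.η r c' * (Real.cosh r / Real.sinh r) * (((4 : ℕ) : ℝ) - 2 + c ^ 2)
        - |c| * |C.ηc r c'| * Real.sqrt ((1 - c ^ 2) * (1 - c' ^ 2)) / Real.sinh r
        - (((4 : ℕ) : ℝ) - 1) * (Real.cosh R / Real.sinh R) * c * C.η r c')
      + (C.ηr r c * (1 - c' ^ 2)
        + C.η r c * (Real.cosh r / Real.sinh r) * (((4 : ℕ) : ℝ) - 2 + c' ^ 2)
        - |c'| * |C.ηc r c| * Real.sqrt ((1 - c' ^ 2) * (1 - c ^ 2)) / Real.sinh r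
        - (((4 : ℕ) : ℝ) - 1) * (Real.cosh R / Real.sinh R) * c' * C.η r c)) / 2)
    = (C.pv r).B ((c + c') / 2) (c * c') (√((1 - c ^ 2) * (1 - c' ^ 2))) := by
  have hkey := C.key hR hr (C.Y_nonpos hR hr) c c' c c' 1 (√((1 - c ^ 2) * (1 - c' ^ 2)))
  have e1 : (1 - c' ^ 2) * (1 - c ^ 2) = (1 - c ^ 2) * (1 - c' ^ 2) := by ring
  rw [e1, abs_of_nonneg hc, abs_of_nonneg hc']
  have e2 : (C.pv r).B ((c + c') / 2) (c * c') (√((1 - c ^ 2) * (1 - c' ^ 2)))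
      = (C.pv r).y * ((C.pv r).a + (C.pv r).A1 * (1 - (c ^ 2 + c' ^ 2) / 2)
        + (C.pv r).KA * (2 + (c ^ 2 + c' ^ 2) / 2)
        - 1 * 3 * ((C.pv r).y * ((C.pv r).q - (C.pv r).Y) * ((c + c') / 2)
          + (C.pv r).Y * (c * c')))
      + (c + c') / 2 * ((C.pv r).B1 * (1 - c * c') + (C.pv r).KB * (2 + c * c'))
      + (C.pv r).GB * ((c + c') / 2 * √((1 - c ^ 2) * (1 - c' ^ 2))) := by
    unfold Pv.B
    ring
  rw [e2, ← hkey]
  push_cast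
  ring

theorem LinCert.B_slope (C : LinCert R) (hR : 0 < R) (r c c' : ℝ) (hr : 0 < r) (hc : 0 ≤ c)
    (hc1 : c ≤ 1) (hc' : 0 ≤ c') (hc1' : c' ≤ 1) :
    0 ≤ C.a + ((C.ηr r c' * (1 - c ^ 2)
        + C.η r c' * (Real.cosh r / Real.sinh r) * (((4 : ℕ) : ℝ) - 2 + c ^ 2)
        - |c| * |C.ηc r c'| * Real.sqrt ((1 - c ^ 2) * (1 - c' ^ 2)) / Real.sinh r
        - (((4 : ℕ) : ℝ) - 1) * (Real.cosh R / Real.sinh R) * c * C.η r c')
      + (C.ηr r c * (1 - c' ^ 2)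
        + C.η r c * (Real.cosh r / Real.sinh r) * (((4 : ℕ) : ℝ) - 2 + c' ^ 2)
        - |c'| * |C.ηc r c| * Real.sqrt ((1 - c' ^ 2) * (1 - c ^ 2)) / Real.sinh r
        - (((4 : ℕ) : ℝ) - 1) * (Real.cosh R / Real.sinh R) * c' * C.η r c)) / 2
      + c * c' * Real.sqrt (C.η r c * C.η r c') / Real.sinh r := by
  have hy := C.y_pos hR hr
  have hT := tanh_pos hR
  have hx := xf_pos hr
  have hw := wf_pos r
  have h := slope_core (C.okv hR hr) hc hc1 hc' hc1'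
  have hkey := C.key_vis hR hr hc hc'
  have hη1 := C.η_one_nonneg hR hr
  have hY := C.Y_nonpos hR hr
  set sg := √((1 - c) * (1 - c')) with hsg
  have hsg0 : 0 ≤ sg := Real.sqrt_nonneg _
  have hsg2 : sg ^ 2 = (1 - c) * (1 - c') := Real.sq_sqrt (mul_nonneg (by linarith) (by linarith))
  -- lower bound for the geometric mean
  have hgm : C.η r 1 + -(C.Y (wf r)) * Real.tanh R * sg ≤ Real.sqrt (C.η r c * C.η r c') := by
    refine Real.le_sqrt_of_sq_le ?_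
    rw [C.η_eq r c, C.η_eq r c']
    set β := -(C.Y (wf r)) * Real.tanh R with hβ
    have hβ0 : 0 ≤ β := mul_nonneg (by linarith) hT.le
    have h2 : 2 * sg ≤ (1 - c) + (1 - c') := by
      nlinarith [sq_nonneg ((1 - c) - (1 - c')), hsg2, hsg0]
    have h3 := mul_le_mul_of_nonneg_left h2 (mul_nonneg hη1 hβ0)
    have h4 : (C.η r 1 + β * sg) ^ 2 = C.η r 1 ^ 2 + C.η r 1 * β * (2 * sg) + β ^ 2 * sg ^ 2 := by ring
    rw [h4, hsg2]
    nlinarith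
  have hfin : 0 ≤ (C.pv r).y * (C.a + ((C.ηr r c' * (1 - c ^ 2)
        + C.η r c' * (Real.cosh r / Real.sinh r) * (((4 : ℕ) : ℝ) - 2 + c ^ 2)
        - |c| * |C.ηc r c'| * Real.sqrt ((1 - c ^ 2) * (1 - c' ^ 2)) / Real.sinh r
        - (((4 : ℕ) : ℝ) - 1) * (Real.cosh R / Real.sinh R) * c * C.η r c')
      + (C.ηr r c * (1 - c' ^ 2)
        + C.η r c * (Real.cosh r / Real.sinh r) * (((4 : ℕ) : ℝ) - 2 + c' ^ 2)
        - |c'| * |C.ηc r c| * Real.sqrt ((1 - c' ^ 2) * (1 - c ^ 2)) / Real.sinh r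
        - (((4 : ℕ) : ℝ) - 1) * (Real.cosh R / Real.sinh R) * c' * C.η r c)) / 2
      + c * c' * Real.sqrt (C.η r c * C.η r c') / Real.sinh r) := by
    rw [mul_add, hkey]
    have e1 : (C.pv r).y * (c * c' * Real.sqrt (C.η r c * C.η r c') / Real.sinh r)
        = c * c' * (wf r ^ 2 / (2 * Real.tanh R)) * Real.sqrt (C.η r c * C.η r c') := by
      rw [sinh_eq_xf]
      simp only [LinCert.pv]
      field_simp
    rw [e1]
    have e2 : c * c' * (wf r ^ 2 / (2 * Real.tanh R)) * (C.η r 1 + -(C.Y (wf r)) * Real.tanh R * sg)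
        = c * c' * ((C.pv r).w ^ 2 / 2 * (C.pv r).E) - (C.pv r).GB * (c * c' * sg) := by
      rw [C.η_one hR]
      simp only [Pv.GB]
      have : (C.pv r).w = wf r := rfl
      have h2 : (C.pv r).Y = C.Y (wf r) := rfl
      rw [this, h2]
      field_simp
      ring
    have e3 : c * c' * (wf r ^ 2 / (2 * Real.tanh R)) * (C.η r 1 + -(C.Y (wf r)) * Real.tanh R * sg)
        ≤ c * c' * (wf r ^ 2 / (2 * Real.tanh R)) * Real.sqrt (C.η r c * C.η r c') :=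
      mul_le_mul_of_nonneg_left hgm (by positivity)
    rw [e2] at e3
    linarith
  exact nonneg_of_mul_nonneg_right hfin hy

theorem LinCert.B_comp (C : LinCert R) (hR : 0 < R) (r c c' : ℝ) (hr : 0 < r) (hc : 0 ≤ c)
    (hc1 : c ≤ 1) (hc' : 0 ≤ c') (hc1' : c' ≤ 1) :
    -(c * (C.hk * Real.sinh r ^ 3)) ≤ (C.a + ((C.ηr r c' * (1 - c ^ 2)
        + C.η r c' * (Real.cosh r / Real.sinh r) * (((4 : ℕ) : ℝ) - 2 + c ^ 2)
        - |c| * |C.ηc r c'| * Real.sqrt ((1 - c ^ 2) * (1 - c' ^ 2)) / Real.sinh r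
        - (((4 : ℕ) : ℝ) - 1) * (Real.cosh R / Real.sinh R) * c * C.η r c')
      + (C.ηr r c * (1 - c' ^ 2)
        + C.η r c * (Real.cosh r / Real.sinh r) * (((4 : ℕ) : ℝ) - 2 + c' ^ 2)
        - |c'| * |C.ηc r c| * Real.sqrt ((1 - c' ^ 2) * (1 - c ^ 2)) / Real.sinh r
        - (((4 : ℕ) : ℝ) - 1) * (Real.cosh R / Real.sinh R) * c' * C.η r c)) / 2)
      * Real.sinh r ^ (4 - 1) := by
  have hy := C.y_pos hR hr
  have h := comp_core (C.okv hR hr) hc hc1 hc' hc1'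
  have hkey := C.key_vis hR hr hc hc'
  have hs : 0 < Real.sinh r := Real.sinh_pos_iff.2 hr
  rw [← hkey] at h
  set X := C.a + ((C.ηr r c' * (1 - c ^ 2)
        + C.η r c' * (Real.cosh r / Real.sinh r) * (((4 : ℕ) : ℝ) - 2 + c ^ 2)
        - |c| * |C.ηc r c'| * Real.sqrt ((1 - c ^ 2) * (1 - c' ^ 2)) / Real.sinh r
        - (((4 : ℕ) : ℝ) - 1) * (Real.cosh R / Real.sinh R) * c * C.η r c')
      + (C.ηr r c * (1 - c' ^ 2)
        + C.η r c * (Real.cosh r / Real.sinh r) * (((4 : ℕ) : ℝ) - 2 + c' ^ 2)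
        - |c'| * |C.ηc r c| * Real.sqrt ((1 - c' ^ 2) * (1 - c ^ 2)) / Real.sinh r
        - (((4 : ℕ) : ℝ) - 1) * (Real.cosh R / Real.sinh R) * c' * C.η r c)) / 2 with hX
  have h1 : 0 ≤ (C.pv r).y * (X + c * c' * C.hk) := by
    have e : (C.pv r).y * (X + c * c' * C.hk) = (C.pv r).y * X + c * c' * (C.hk * (C.pv r).y) := by
      ring
    rw [e]
    exact h
  have h2 := nonneg_of_mul_nonneg_right h1 hy
  have h3 : c * c' * C.hk ≤ c * C.hk := by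
    have := mul_nonneg hc C.hk_nonneg
    nlinarith
  have h4 : 0 ≤ X + c * C.hk := by linarith
  have h5 := mul_nonneg h4 (pow_pos hs 3).le
  have e4 : 4 - 1 = 3 := rfl
  rw [e4]
  linarith

theorem LinCert.B_comp' (C : LinCert R) (hR : 0 < R) (r γ c' : ℝ) (hr : 0 < r) (hc : 0 ≤ γ)
    (hc1 : γ ≤ 1) (hc' : 0 ≤ c') (hc1' : c' ≤ 1) :
    γ * (C.hk * Real.sinh r ^ 3) ≤ (C.a + ((C.ηr r c' * (1 - γ ^ 2)
        + C.η r c' * (Real.cosh r / Real.sinh r) * (((4 : ℕ) : ℝ) - 2 + γ ^ 2)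
        - |γ| * |C.ηc r c'| * Real.sqrt ((1 - γ ^ 2) * (1 - c' ^ 2)) / Real.sinh r
        + (((4 : ℕ) : ℝ) - 1) * (Real.cosh R / Real.sinh R) * γ * C.η r c')
      + (C.ηr r (-γ) * (1 - c' ^ 2)
        + C.η r (-γ) * (Real.cosh r / Real.sinh r) * (((4 : ℕ) : ℝ) - 2 + c' ^ 2)
        - |c'| * |C.ηc r (-γ)| * Real.sqrt ((1 - c' ^ 2) * (1 - γ ^ 2)) / Real.sinh r
        - (((4 : ℕ) : ℝ) - 1) * (Real.cosh R / Real.sinh R) * c' * C.η r (-γ))) / 2)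
      * Real.sinh r ^ (4 - 1) := by
  have hy := C.y_pos hR hr
  have h := comp_core' (C.okv hR hr) hy.le hc hc1 hc' hc1'
  have hkey := C.key hR hr (C.Y_nonpos hR hr) (-γ) c' γ c' 1 (√((1 - γ ^ 2) * (1 - c' ^ 2)))
  have hs : 0 < Real.sinh r := Real.sinh_pos_iff.2 hr
  have e1 : (1 - c' ^ 2) * (1 - γ ^ 2) = (1 - γ ^ 2) * (1 - c' ^ 2) := by ring
  rw [e1, abs_of_nonneg hc, abs_of_nonneg hc']
  set ρ := √((1 - γ ^ 2) * (1 - c' ^ 2)) with hρ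
  set X := C.a + ((C.ηr r c' * (1 - γ ^ 2)
        + C.η r c' * (Real.cosh r / Real.sinh r) * (((4 : ℕ) : ℝ) - 2 + γ ^ 2)
        - γ * |C.ηc r c'| * ρ / Real.sinh r
        + (((4 : ℕ) : ℝ) - 1) * (Real.cosh R / Real.sinh R) * γ * C.η r c')
      + (C.ηr r (-γ) * (1 - c' ^ 2)
        + C.η r (-γ) * (Real.cosh r / Real.sinh r) * (((4 : ℕ) : ℝ) - 2 + c' ^ 2)
        - c' * |C.ηc r (-γ)| * ρ / Real.sinh r
        - (((4 : ℕ) : ℝ) - 1) * (Real.cosh R / Real.sinh R) * c' * C.η r (-γ))) / 2 with hX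
  have e2 : (C.pv r).y * X = (C.pv r).y * ((C.pv r).a
      + (C.pv r).A1 * (1 - (γ ^ 2 + c' ^ 2) / 2) + (C.pv r).KA * (2 + (γ ^ 2 + c' ^ 2) / 2)
        - 3 * ((C.pv r).y * ((C.pv r).q - (C.pv r).Y) * ((-γ + c') / 2)
          + (C.pv r).Y * (-γ * c')))
      + (-γ + c') / 2 * ((C.pv r).B1 * (1 - -γ * c') + (C.pv r).KB * (2 + -γ * c'))
      + (C.pv r).GB * ((γ + c') / 2 * ρ) := by
    have e3 : (-γ) ^ 2 = γ ^ 2 := by ring
    rw [e3] at hkey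
    have e4 : (C.pv r).y * X = (C.pv r).y * (C.a + ((C.ηr r c' * (1 - γ ^ 2)
        + C.η r c' * (Real.cosh r / Real.sinh r) * (2 + γ ^ 2)
        - γ * |C.ηc r c'| * ρ / Real.sinh r
        - 1 * (3 * (Real.cosh R / Real.sinh R) * (-γ) * C.η r c'))
      + (C.ηr r (-γ) * (1 - c' ^ 2)
        + C.η r (-γ) * (Real.cosh r / Real.sinh r) * (2 + c' ^ 2)
        - c' * |C.ηc r (-γ)| * ρ / Real.sinh r
        - 1 * (3 * (Real.cosh R / Real.sinh R) * c' * C.η r (-γ)))) / 2) := by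
      rw [hX]
      push_cast
      ring
    rw [e4, hkey]
    ring
  have h1 : 0 ≤ (C.pv r).y * (X - γ * C.hk) := by
    have e : (C.pv r).y * (X - γ * C.hk) = (C.pv r).y * X - γ * (C.hk * (C.pv r).y) := by ring
    rw [e, e2]
    exact h
  have h2 := nonneg_of_mul_nonneg_right h1 hy
  have h5 := mul_nonneg h2 (pow_pos hs 3).le
  have e4 : 4 - 1 = 3 := rfl
  rw [e4]
  linarith

end Vale.Agent.Lib.P219.Lin
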