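import Vale.Agent.Lib.P219.K.Lin.LinKey

/-!
# P219, curvature `-1`, dimension four: regularity and sign of the kernel of a linear certificate
-/

namespace Vale.Agent.Lib.P219.Lin

open Set Filter Topology

variable {R : ℝ}

theorem LinCert.q_deriv (C : LinCert R) : ∀ w, 0 < w → w < 1 → HasDerivAt C.q (C.q1 w) w := C.hq

theorem LinCert.Y_deriv (C : LinCert R) : ∀ w, 0 < w → w < 1 → HasDerivAt C.Y (C.Y1 w) w := C.hY

theorem LinCert.q1_cont (C : LinCert R) : ContinuousOn C.q1 (Ioo 0 1) := by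
  have h1 : ContinuousOn C.dq (Ioo 0 1) := fun w hw =>
    (C.hdq w hw.1 hw.2).continuousAt.continuousWithinAt
  refine ContinuousOn.div ((continuousOn_const.mul h1).neg) (by fun_prop) fun w hw => ?_
  exact (mul_pos hw.1 (by nlinarith [hw.1, hw.2])).ne'

theorem LinCert.Y1_cont (C : LinCert R) : ContinuousOn C.Y1 (Ioo 0 1) := by
  have h1 : ContinuousOn C.dY (Ioo 0 1) := fun w hw =>
    (C.hdY w hw.1 hw.2).continuousAt.continuousWithinAt
  refine ContinuousOn.div ((continuousOn_const.mul h1).neg) (by fun_prop) fun w hw => ?_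
  exact (mul_pos hw.1 (by nlinarith [hw.1, hw.2])).ne'

theorem LinCert.smooth (C : LinCert R) :
    ContDiffOn ℝ 1 (fun p : ℝ × ℝ => C.η p.1 p.2) (Ioi 0 ×ˢ univ) :=
  eta_smooth C.q_deriv C.q1_cont C.Y_deriv C.Y1_cont

theorem LinCert.deriv_r (C : LinCert R) (r c : ℝ) (hr : 0 < r) :
    HasDerivAt (fun s => C.η s c) (C.ηr r c) r :=
  eta_deriv_r C.q_deriv C.Y_deriv r c hr

theorem LinCert.deriv_c (C : LinCert R) (r c : ℝ) (_hr : 0 < r) :
    HasDerivAt (fun s => C.η r s) (C.ηc r c) c :=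
  eta_deriv_c r c

theorem LinCert.Y_nonpos (C : LinCert R) (hR : 0 < R) {r : ℝ} (hr : 0 < r) : C.Y (wf r) ≤ 0 :=
  (C.okv hR hr).Y_np

theorem LinCert.η_one (C : LinCert R) (hR : 0 < R) (r : ℝ) :
    C.η r 1 = Real.tanh R * (C.pv r).E := by
  have := (tanh_pos hR).ne'
  simp only [LinCert.η, eta, Pv.E, LinCert.pv]
  field_simp
  ring

theorem LinCert.η_eq (C : LinCert R) (r c : ℝ) :
    C.η r c = C.η r 1 + -(C.Y (wf r)) * Real.tanh R * (1 - c) := by
  simp only [LinCert.η, eta]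
  ring

theorem LinCert.η_one_nonneg (C : LinCert R) (hR : 0 < R) {r : ℝ} (hr : 0 < r) : 0 ≤ C.η r 1 := by
  rw [C.η_one hR]
  exact mul_nonneg (tanh_pos hR).le (C.okv hR hr).eta

theorem LinCert.η_nonneg (C : LinCert R) (hR : 0 < R) (r c : ℝ) (hr : 0 < r) (hc : |c| ≤ 1) :
    0 ≤ C.η r c := by
  rw [C.η_eq]
  have h1 := C.η_one_nonneg hR hr
  have h2 := C.Y_nonpos hR hr
  have h3 := tanh_pos hR
  have h4 := (abs_le.1 hc).2
  have h5 : 0 ≤ -(C.Y (wf r)) * Real.tanh R * (1 - c) :=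
    mul_nonneg (mul_nonneg (by linarith) h3.le) (by linarith)
  linarith

theorem LinCert.bound (C : LinCert R) (hR : 0 < R) : ∀ δ > 0, ∃ M : ℝ, ∀ r c, δ ≤ r → |c| ≤ 1 →
    C.η r c ≤ M ∧ |C.ηr r c| ≤ M ∧ |C.ηc r c| ≤ M := by
  intro δ hδ
  refine ⟨4 * C.M + C.M / xf δ, fun r c hr hc => ?_⟩
  have hr0 : 0 < r := hδ.trans_le hr
  have hw0 := wf_pos r
  have hw1 := wf_lt_one hr0
  have hx0 := xf_pos hr0
  have hxd := xf_pos hδ
  have hx1 := xf_lt_one r
  obtain ⟨a1, a2, a3, a4⟩ := C.bdd _ hw0 hw1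
  have hT0 := tanh_pos hR
  have hT1 := Real.tanh_lt_one R
  have hM : 0 ≤ C.M := (abs_nonneg _).trans a1
  have hmono : xf δ ≤ xf r := by
    have : Monotone xf := by
      refine monotone_of_deriv_nonneg (fun r => (hasDerivAt_xf r).differentiableAt) fun r => ?_
      rw [(hasDerivAt_xf r).deriv]
      positivity
    exact this hr
  have hMx : C.M / xf r ≤ C.M / xf δ := div_le_div_of_nonneg_left hM hxd hmono
  have hMd : 0 ≤ C.M / xf δ := div_nonneg hM hxd.le
  have bTc : |Real.tanh R * c| ≤ 1 := by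
    rw [abs_mul, abs_of_pos hT0]
    calc Real.tanh R * |c| ≤ 1 * 1 := mul_le_mul hT1.le hc (abs_nonneg _) zero_le_one
      _ = 1 := one_mul 1
  have b1 : |Real.tanh R * c - xf r| ≤ 2 := by
    calc |Real.tanh R * c - xf r| ≤ |Real.tanh R * c| + |xf r| := abs_sub _ _
      _ ≤ 1 + 1 := by
        rw [abs_of_pos hx0]
        linarith
      _ = 2 := by norm_num
  have bx : |xf r| ≤ 1 := by rw [abs_of_pos hx0]; exact hx1.le
  have m1 : ∀ {u v A B : ℝ}, |u| ≤ A → |v| ≤ B → |u * v| ≤ A * B := fun {u v A B} hu hv => by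
    rw [abs_mul]
    exact mul_le_mul hu hv (abs_nonneg _) ((abs_nonneg _).trans hu)
  refine ⟨?_, ?_, ?_⟩
  · refine (le_abs_self _).trans ?_
    unfold LinCert.η eta
    calc |xf r * C.q (wf r) + C.Y (wf r) * (Real.tanh R * c - xf r)|
        ≤ |xf r * C.q (wf r)| + |C.Y (wf r) * (Real.tanh R * c - xf r)| := abs_add_le _ _
      _ ≤ 1 * C.M + C.M * 2 := add_le_add (m1 bx a1) (m1 a3 b1)
      _ ≤ 4 * C.M + C.M / xf δ := by linarith
  · rw [C.ηr_eq hr0]
    have e3 : |C.dY (wf r) / xf r * (Real.tanh R * c)| ≤ C.M / xf r * 1 := by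
      refine m1 ?_ bTc
      rw [abs_div, abs_of_pos hx0]
      exact div_le_div_of_nonneg_right a4 hx0.le
    have e1 : |(C.pv r).A1| ≤ 4 * C.M := by
      simp only [Pv.A1, LinCert.pv]
      have f1 : |wf r ^ 2 * (C.q (wf r) - C.Y (wf r)) / 2| ≤ 1 * (2 * C.M) := by
        rw [mul_div_assoc]
        refine m1 (by rw [abs_of_pos (by positivity)]; nlinarith) ?_
        rw [abs_div, abs_of_pos (by norm_num : (0 : ℝ) < 2)]
        have := abs_sub (C.q (wf r)) (C.Y (wf r))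
        linarith
      have f2 := abs_add_le (wf r ^ 2 * (C.q (wf r) - C.Y (wf r)) / 2)
        (C.dq (wf r) - C.dY (wf r))
      have f3 := abs_sub (C.dq (wf r)) (C.dY (wf r))
      linarith
    have t1 := abs_add_le ((C.pv r).A1) (C.dY (wf r) / xf r * (Real.tanh R * c))
    linarith
  · unfold LinCert.ηc etac
    have := m1 a3 (show |Real.tanh R| ≤ 1 by rw [abs_of_pos hT0]; exact hT1.le)
    linarith

end Vale.Agent.Lib.P219.Lin
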