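import Vale.Agent.Lib.P219.K.Lin.LinDefs
import Vale.Agent.Lib.P219.K.Lin.Fam

/-!
# P219, curvature `-1`, dimension four: the values of a linear certificate at a point
-/

namespace Vale.Agent.Lib.P219.Lin

open Set Filter Topology

variable {R : ℝ}

theorem tanh_pos (hR : 0 < R) : 0 < Real.tanh R := by
  rw [Real.tanh_eq_sinh_div_cosh]; exact div_pos (Real.sinh_pos_iff.2 hR) (Real.cosh_pos R)

theorem coth_eq_inv (hR : 0 < R) : Real.cosh R / Real.sinh R = 1 / Real.tanh R := by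
  rw [Real.tanh_eq_sinh_div_cosh, one_div_div]

/-- `q'` -/
noncomputable def LinCert.q1 (C : LinCert R) (w : ℝ) : ℝ := -(2 * C.dq w) / (w * (1 - w ^ 2))

/-- `Y'` -/
noncomputable def LinCert.Y1 (C : LinCert R) (w : ℝ) : ℝ := -(2 * C.dY w) / (w * (1 - w ^ 2))

/-- the values at distance `r` -/
noncomputable def LinCert.pv (C : LinCert R) (r : ℝ) : Pv :=
  Pv.mk (wf r) (xf r / Real.tanh R) C.a (C.q (wf r)) (C.dq (wf r)) (C.ddq (wf r)) (C.Y (wf r))
    (C.dY (wf r)) (C.ddY (wf r))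

/-- `η` of the certificate -/
noncomputable def LinCert.η (C : LinCert R) (r c : ℝ) : ℝ := eta (Real.tanh R) C.q C.Y r c

/-- `∂η/∂r` of the certificate -/
noncomputable def LinCert.ηr (C : LinCert R) (r c : ℝ) : ℝ :=
  etar (Real.tanh R) C.q C.q1 C.Y C.Y1 r c

/-- `∂η/∂c` of the certificate -/
noncomputable def LinCert.ηc (C : LinCert R) (r c : ℝ) : ℝ := etac (Real.tanh R) C.Y r c

theorem LinCert.y_pos (C : LinCert R) (hR : 0 < R) {r : ℝ} (hr : 0 < r) : 0 < (C.pv r).y :=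
  div_pos (xf_pos hr) (tanh_pos hR)

theorem LinCert.y_sq (C : LinCert R) (hR : 0 < R) (r : ℝ) :
    (xf r / Real.tanh R) ^ 2 * Real.tanh R ^ 2 = 1 - wf r ^ 2 := by
  have := (tanh_pos hR).ne'
  have h := xf_sq_add_wf_sq r
  field_simp
  linarith

theorem LinCert.okv (C : LinCert R) (hR : 0 < R) {r : ℝ} (hr : 0 < r) : (C.pv r).OK C.hk :=
  C.ok _ _ (wf_pos r) (wf_lt_one hr) (C.y_pos hR hr) (C.y_sq hR r)

theorem coth_eq_wf {r : ℝ} (hr : 0 < r) :
    Real.cosh r / Real.sinh r = (2 - wf r ^ 2) / (2 * xf r) := by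
  rw [coth_eq_xf hr]
  have h := xf_sq_add_wf_sq r
  have h1 : 1 + xf r ^ 2 = 2 - wf r ^ 2 := by linarith
  rw [h1]

theorem LinCert.ηr_eq (C : LinCert R) {r : ℝ} (hr : 0 < r) (c : ℝ) :
    C.ηr r c = (C.pv r).A1 + C.dY (wf r) / xf r * (Real.tanh R * c) := by
  have hx := (xf_pos hr).ne'
  have hw := (wf_pos r).ne'
  have h : 1 - wf r ^ 2 = xf r ^ 2 := by linarith [xf_sq_add_wf_sq r]
  simp only [LinCert.ηr, etar, LinCert.q1, LinCert.Y1, Pv.A1, LinCert.pv, h]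
  field_simp
  ring

/-- the pair kernel in terms of the values at a point -/
theorem LinCert.key (C : LinCert R) (hR : 0 < R) {r : ℝ} (hr : 0 < r)
    (hY : C.Y (wf r) ≤ 0) (c c' κ κ' ν ρ : ℝ) :
    (C.pv r).y * (C.a + ((C.ηr r c' * (1 - c ^ 2)
        + C.η r c' * (Real.cosh r / Real.sinh r) * (2 + c ^ 2)
        - κ * |C.ηc r c'| * ρ / Real.sinh r
        - ν * (3 * (Real.cosh R / Real.sinh R) * c * C.η r c'))
      + (C.ηr r c * (1 - c' ^ 2) + C.η r c * (Real.cosh r / Real.sinh r) * (2 + c' ^ 2)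
        - κ' * |C.ηc r c| * ρ / Real.sinh r
        - ν * (3 * (Real.cosh R / Real.sinh R) * c' * C.η r c))) / 2)
    = (C.pv r).y * ((C.pv r).a + (C.pv r).A1 * (1 - (c ^ 2 + c' ^ 2) / 2)
        + (C.pv r).KA * (2 + (c ^ 2 + c' ^ 2) / 2)
        - ν * 3 * ((C.pv r).y * ((C.pv r).q - (C.pv r).Y) * ((c + c') / 2)
          + (C.pv r).Y * (c * c')))
      + (c + c') / 2 * ((C.pv r).B1 * (1 - c * c') + (C.pv r).KB * (2 + c * c'))
      + (C.pv r).GB * ((κ + κ') / 2 * ρ) := by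
  have hT := (tanh_pos hR).ne'
  have hx := (xf_pos hr).ne'
  have hw := (wf_pos r).ne'
  rw [C.ηr_eq hr, C.ηr_eq hr, coth_eq_wf hr, coth_eq_inv hR]
  have e1 : |C.ηc r c'| = -(C.Y (wf r) * Real.tanh R) := by
    unfold LinCert.ηc etac
    rw [abs_of_nonpos (mul_nonpos_of_nonpos_of_nonneg hY (tanh_pos hR).le)]
  have e2 : |C.ηc r c| = -(C.Y (wf r) * Real.tanh R) := by
    unfold LinCert.ηc etac
    rw [abs_of_nonpos (mul_nonpos_of_nonpos_of_nonneg hY (tanh_pos hR).le)]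
  rw [e1, e2, sinh_eq_xf]
  simp only [LinCert.η, eta, Pv.A1, Pv.KA, Pv.KB, Pv.GB, Pv.B1, LinCert.pv]
  field_simp
  ring

end Vale.Agent.Lib.P219.Lin
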