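import Mathlib.Algebra.Order.Star.Real
import Mathlib.Analysis.InnerProductSpace.Basic
import Mathlib.Analysis.SpecialFunctions.Trigonometric.DerivHyp
import Mathlib.Topology.Algebra.Module.ModuleTopology

/-!
# P219, curvature `-1`: reduction of the sharp lower bound (N2) to algebraic inequalities

`BT r c c'` is the true pair kernel times `sinh^(n-1) r`, `BL` a lower bound for it,
`y = tanh (r/2) / T` the cosine of the model chord of length `r` (`T = tanh R`, `y ≤ 1` iff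
`r ≤ 2R`), `K r = BL r y y / y^2`.

* `r ≤ 2R`: `d r = 2 f y + K r` (contact), `P y c ≤ f c - f y`, and the algebraic inequality `T1`.
* `r ≥ 2R`: monotonicity in `r` starting from `r = 2R`.
-/

namespace Vale.Agent.Lib.P219.Lin

open Set

/-- the reduction -/
theorem lower_of_reduction {R T d : ℝ} (hR : 0 < R) {f K : ℝ → ℝ} {BT BL DL : ℝ → ℝ → ℝ → ℝ}
    {P : ℝ → ℝ → ℝ}
    (hBL : ∀ r c c', 0 < r → 0 < c → c ≤ 1 → 0 < c' → c' ≤ 1 → BL r c c' ≤ BT r c c')
    (contact : ∀ r, 0 < r → r ≤ 2 * R → d * r = 2 * f (Real.tanh (r / 2) / T) + K r)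
    (hy : ∀ r, 0 < r → r ≤ 2 * R → 0 < Real.tanh (r / 2) / T ∧ Real.tanh (r / 2) / T ≤ 1)
    (hP : ∀ y c, 0 < y → y ≤ 1 → 0 < c → c ≤ 1 → P y c ≤ f c - f y)
    (T1 : ∀ r c c', 0 < r → r ≤ 2 * R → 0 < c → c ≤ 1 → 0 < c' → c' ≤ 1 →
      c * c' * (K r - P (Real.tanh (r / 2) / T) c - P (Real.tanh (r / 2) / T) c') ≤ BL r c c')
    (hcont : ∀ c c', 0 < c → c ≤ 1 → 0 < c' → c' ≤ 1 →
      ContinuousOn (fun r => BL r c c') (Ici (2 * R)))
    (hder : ∀ r c c', 2 * R < r → 0 < c → c ≤ 1 → 0 < c' → c' ≤ 1 →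
      HasDerivAt (fun r => BL r c c') (DL r c c') r)
    (T2 : ∀ r c c', 2 * R < r → 0 < c → c ≤ 1 → 0 < c' → c' ≤ 1 → c * c' * d ≤ DL r c c') :
    ∀ r c c', 0 < r → 0 < c → c ≤ 1 → 0 < c' → c' ≤ 1 →
      c * c' * (d * r - f c - f c') ≤ BT r c c' := by
  -- the case `r ≤ 2R`
  have h1 : ∀ r c c', 0 < r → r ≤ 2 * R → 0 < c → c ≤ 1 → 0 < c' → c' ≤ 1 →
      c * c' * (d * r - f c - f c') ≤ BL r c c' := by
    intro r c c' hr hr2 hc hc1 hc' hc1'
    have hy' := hy r hr hr2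
    have e1 := hP _ c hy'.1 hy'.2 hc hc1
    have e2 := hP _ c' hy'.1 hy'.2 hc' hc1'
    refine le_trans ?_ (T1 r c c' hr hr2 hc hc1 hc' hc1')
    refine mul_le_mul_of_nonneg_left ?_ (mul_pos hc hc').le
    rw [contact r hr hr2]
    linarith
  intro r c c' hr hc hc1 hc' hc1'
  refine le_trans ?_ (hBL r c c' hr hc hc1 hc' hc1')
  rcases le_or_gt r (2 * R) with h | h
  · exact h1 r c c' hr h hc hc1 hc' hc1'
  · have hlin : ∀ x : ℝ, HasDerivAt (fun r : ℝ => c * c' * (d * r - f c - f c')) (c * c' * d) x := by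
      intro x
      have := ((((hasDerivAt_id x).const_mul d).sub_const (f c)).sub_const (f c')).const_mul (c * c')
      simpa using this
    have hmono : MonotoneOn (fun r => BL r c c' - c * c' * (d * r - f c - f c')) (Ici (2 * R)) := by
      refine monotoneOn_of_deriv_nonneg (convex_Ici _) ?_ ?_ ?_
      · exact (hcont c c' hc hc1 hc' hc1').sub
          (fun x _ => (hlin x).continuousAt.continuousWithinAt)
      · rw [interior_Ici]
        intro x hx
        exact ((hder x c c' hx hc hc1 hc' hc1').sub (hlin x)).differentiableAt.differentiableWithinAt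
      · rw [interior_Ici]
        intro x hx
        have e : deriv (fun r => BL r c c' - c * c' * (d * r - f c - f c')) x
            = DL x c c' - c * c' * d := ((hder x c c' hx hc hc1 hc' hc1').sub (hlin x)).deriv
        rw [e]
        have := T2 x c c' hx hc hc1 hc' hc1'
        linarith
    have h2 := hmono (self_mem_Ici) (mem_Ici.2 h.le) h.le
    have h3 := h1 (2 * R) c c' (by linarith) le_rfl hc hc1 hc' hc1'
    simp only at h2
    linarith

/-- tangent plus correction: `f c - f y ≥ G y (c - y) + H y c` -/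
theorem tangent_add_lower {f G : ℝ → ℝ} {H h : ℝ → ℝ → ℝ}
    (hf : ContinuousOn f (Ioc 0 1)) (hf' : ∀ c, 0 < c → c < 1 → HasDerivAt f (G c) c)
    (hH : ∀ y, 0 < y → y ≤ 1 → ContinuousOn (H y) (Ioc 0 1))
    (hH' : ∀ y c, 0 < y → y ≤ 1 → 0 < c → c < 1 → HasDerivAt (H y) (h y c) c)
    (hH0 : ∀ y, 0 < y → y ≤ 1 → H y y = 0)
    (h1 : ∀ y c, 0 < y → y ≤ c → c < 1 → G y + h y c ≤ G c)
    (h2 : ∀ y c, 0 < c → c ≤ y → y ≤ 1 → G c ≤ G y + h y c) :
    ∀ y c, 0 < y → y ≤ 1 → 0 < c → c ≤ 1 → G y * (c - y) + H y c ≤ f c - f y := by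
  intro y c hy hy1 hc hc1
  set Φ : ℝ → ℝ := fun t => f t - G y * (t - y) - H y t with hΦ
  have hΦc : ContinuousOn Φ (Ioc 0 1) :=
    (hf.sub (by fun_prop)).sub (hH y hy hy1)
  have hΦ' : ∀ t, 0 < t → t < 1 → HasDerivAt Φ (G t - G y - h y t) t := by
    intro t ht ht1
    have e1 : HasDerivAt (fun t : ℝ => G y * (t - y)) (G y) t := by
      have := ((hasDerivAt_id t).sub_const y).const_mul (G y)
      simpa using this
    exact ((hf' t ht ht1).sub e1).sub (hH' y t hy hy1 ht ht1)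
  have hΦy : Φ y = f y := by
    simp only [hΦ, hH0 y hy hy1]
    ring
  have goal : Φ y ≤ Φ c := by
    rcases le_total y c with hyc | hyc
    · have hmono : MonotoneOn Φ (Icc y 1) := by
        refine monotoneOn_of_deriv_nonneg (convex_Icc _ _) ?_ ?_ ?_
        · exact hΦc.mono fun t ht => ⟨lt_of_lt_of_le hy ht.1, ht.2⟩
        · rw [interior_Icc]
          intro t ht
          exact (hΦ' t (hy.trans ht.1) ht.2).differentiableAt.differentiableWithinAt
        · rw [interior_Icc]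
          intro t ht
          rw [(hΦ' t (hy.trans ht.1) ht.2).deriv]
          have := h1 y t hy ht.1.le ht.2
          linarith
      exact hmono ⟨le_refl _, hy1⟩ ⟨hyc, hc1⟩ hyc
    · have hanti : AntitoneOn Φ (Icc c y) := by
        refine antitoneOn_of_deriv_nonpos (convex_Icc _ _) ?_ ?_ ?_
        · exact hΦc.mono fun t ht => ⟨lt_of_lt_of_le hc ht.1, ht.2.trans hy1⟩
        · rw [interior_Icc]
          intro t ht
          exact (hΦ' t (hc.trans ht.1) (lt_of_lt_of_le ht.2 hy1)).differentiableAt.differentiableWithinAt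
        · rw [interior_Icc]
          intro t ht
          rw [(hΦ' t (hc.trans ht.1) (lt_of_lt_of_le ht.2 hy1)).deriv]
          have := h2 y t (hc.trans ht.1) ht.2.le hy1
          linarith
      exact hanti ⟨le_refl _, hyc⟩ ⟨hyc, le_refl _⟩ hyc
  rw [hΦy] at goal
  simp only [hΦ] at goal
  linarith

/-- tangent line: `f c - f y ≥ G y (c - y)` if `f' = G` is nondecreasing on `(0,1)` -/
theorem tangent_lower {f G : ℝ → ℝ} (hf : ContinuousOn f (Ioc 0 1))
    (hf' : ∀ c, 0 < c → c < 1 → HasDerivAt f (G c) c)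
    (hG : ∀ x y, 0 < x → x ≤ y → y ≤ 1 → G x ≤ G y) :
    ∀ y c, 0 < y → y ≤ 1 → 0 < c → c ≤ 1 → G y * (c - y) ≤ f c - f y := by
  intro y c hy hy1 hc hc1
  have := tangent_add_lower (H := fun _ _ => 0) (h := fun _ _ => 0) hf hf'
    (fun y _ _ => continuousOn_const) (fun y c _ _ _ _ => hasDerivAt_const c (0 : ℝ))
    (fun y _ _ => rfl) (fun y c hy hyc hc1 => by linarith [hG y c hy hyc hc1.le])
    (fun y c hc hcy hy1 => by linarith [hG c y hc hcy hy1]) y c hy hy1 hc hc1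
  linarith

/-- `y = tanh (r/2) / tanh R` lies in `(0,1]` for `0 < r ≤ 2R` -/
theorem chord_cos {R : ℝ} (hR : 0 < R) : ∀ r, 0 < r → r ≤ 2 * R →
    0 < Real.tanh (r / 2) / Real.tanh R ∧ Real.tanh (r / 2) / Real.tanh R ≤ 1 := by
  have hpos : ∀ x : ℝ, 0 < x → 0 < Real.tanh x := fun x hx => by
    rw [Real.tanh_eq_sinh_div_cosh]
    exact div_pos (Real.sinh_pos_iff.2 hx) (Real.cosh_pos x)
  intro r hr hr2
  have h1 := hpos (r / 2) (by linarith)
  have h2 := hpos R hR
  refine ⟨div_pos h1 h2, (div_le_one h2).2 ?_⟩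
  rw [Real.tanh_eq_sinh_div_cosh, Real.tanh_eq_sinh_div_cosh,
    div_le_div_iff₀ (Real.cosh_pos _) (Real.cosh_pos _)]
  have h3 : 0 ≤ Real.sinh (R - r / 2) := Real.sinh_nonneg_iff.2 (by linarith)
  rw [Real.sinh_sub] at h3
  linarith

end Vale.Agent.Lib.P219.Lin
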