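import Vale.Agent.Lib.P219.K.Lin.LinKey
import Vale.Agent.Lib.P219.K.Lin.Reduce
import Vale.Agent.Lib.P219.K.Fin.Chord

/-!
# P219, curvature `-1`, dimension four: the function `f` and the bound (N2) of a linear certificate
-/

namespace Vale.Agent.Lib.P219.Lin

open Set Filter Topology

variable {R : ℝ}

/-! ### derivatives in `r`, in the form `(x d/dr) / x` -/

theorem ll_w2 {r : ℝ} (hr : 0 < r) :
    HasDerivAt (fun r => wf r ^ 2) (-(wf r ^ 2 * (1 - wf r ^ 2)) / xf r) r := by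
  have hx := (xf_pos hr).ne'
  refine ((hasDerivAt_wf r).fun_pow 2).congr_deriv ?_
  have h : 1 - wf r ^ 2 = xf r ^ 2 := by linarith [xf_sq_add_wf_sq r]
  rw [h]
  field_simp
  ring

theorem ll_y (T : ℝ) {r : ℝ} (hr : 0 < r) :
    HasDerivAt (fun r => xf r / T) (wf r ^ 2 / 2 * (xf r / T) / xf r) r := by
  have hx := (xf_pos hr).ne'
  refine ((hasDerivAt_xf r).div_const T).congr_deriv ?_
  field_simp

theorem ll_y2 (T : ℝ) {r : ℝ} (hr : 0 < r) :
    HasDerivAt (fun r => (xf r / T) ^ 2) (wf r ^ 2 * (xf r / T) ^ 2 / xf r) r := by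
  refine ((ll_y T hr).fun_pow 2).congr_deriv ?_
  ring

theorem ll_comp {φ ψ : ℝ → ℝ}
    (h : ∀ w : ℝ, 0 < w → w < 1 → HasDerivAt φ (-(2 * ψ w) / (w * (1 - w ^ 2))) w) {r : ℝ}
    (hr : 0 < r) : HasDerivAt (fun r => φ (wf r)) (ψ (wf r) / xf r) r := by
  have hx := (xf_pos hr).ne'
  have hw := (wf_pos r).ne'
  have h1 := (h _ (wf_pos r) (wf_lt_one hr)).comp r (hasDerivAt_wf r)
  refine h1.congr_deriv ?_
  have h : 1 - wf r ^ 2 = xf r ^ 2 := by linarith [xf_sq_add_wf_sq r]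
  rw [h]
  field_simp

theorem LinCert.d_b (C : LinCert R) {r : ℝ} (hr : 0 < r) :
    HasDerivAt (fun r => (C.pv r).b) ((C.pv r).db / xf r) r := by
  have hw2 := ll_w2 hr
  have hy2 := ll_y2 (Real.tanh R) hr
  have hq := ll_comp C.hq hr
  have hdq := ll_comp C.hdq hr
  have t1 := (hy2.const_sub 1).fun_mul (((hw2.fun_mul hq).div_const 2).fun_add hdq)
  have t2 := (((hw2.const_sub 2).fun_mul hq).fun_mul (hy2.const_add 2)).div_const 2
  have t3 := (hy2.const_mul 3).fun_mul hq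
  have key := ((t1.const_add C.a).fun_add t2).fun_sub t3
  refine key.congr_deriv ?_
  simp only [Pv.db, LinCert.pv]
  ring

theorem LinCert.d_A1 (C : LinCert R) {r : ℝ} (hr : 0 < r) :
    HasDerivAt (fun r => (C.pv r).A1) ((C.pv r).dA1 / xf r) r := by
  have hw2 := ll_w2 hr
  have hq := ll_comp C.hq hr
  have hdq := ll_comp C.hdq hr
  have hY := ll_comp C.hY hr
  have hdY := ll_comp C.hdY hr
  have key := ((hw2.fun_mul (hq.fun_sub hY)).div_const 2).fun_add (hdq.fun_sub hdY)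
  refine key.congr_deriv ?_
  simp only [Pv.dA1, LinCert.pv]
  ring

theorem LinCert.d_KA (C : LinCert R) {r : ℝ} (hr : 0 < r) :
    HasDerivAt (fun r => (C.pv r).KA) ((C.pv r).dKA / xf r) r := by
  have hw2 := ll_w2 hr
  have hq := ll_comp C.hq hr
  have hY := ll_comp C.hY hr
  have key := ((hw2.const_sub 2).fun_mul (hq.fun_sub hY)).div_const 2
  refine key.congr_deriv ?_
  simp only [Pv.dKA, LinCert.pv]
  ring

theorem LinCert.d_B1 (C : LinCert R) {r : ℝ} (hr : 0 < r) :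
    HasDerivAt (fun r => (C.pv r).B1) ((C.pv r).dB1 / xf r) r := ll_comp C.hdY hr

theorem LinCert.d_KB (C : LinCert R) {r : ℝ} (hr : 0 < r) :
    HasDerivAt (fun r => (C.pv r).KB) ((C.pv r).dKB / xf r) r := by
  have hw2 := ll_w2 hr
  have hY := ll_comp C.hY hr
  have key := ((hw2.const_sub 2).fun_mul hY).div_const 2
  refine key.congr_deriv ?_
  simp only [Pv.dKB, LinCert.pv]
  ring

theorem LinCert.d_GB (C : LinCert R) {r : ℝ} (hr : 0 < r) :
    HasDerivAt (fun r => (C.pv r).GB) ((C.pv r).dGB / xf r) r := by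
  have hw2 := ll_w2 hr
  have hY := ll_comp C.hY hr
  have key := (hw2.fun_mul hY).div_const 2
  refine key.congr_deriv ?_
  simp only [Pv.dGB, LinCert.pv]
  ring

theorem LinCert.d_P (C : LinCert R) {r : ℝ} (hr : 0 < r) :
    HasDerivAt (fun r => (C.pv r).P) ((C.pv r).dP / xf r) r := by
  have hy2 := ll_y2 (Real.tanh R) hr
  have hq := ll_comp C.hq hr
  have hY := ll_comp C.hY hr
  have hA1 := C.d_A1 hr
  have hKA := C.d_KA hr
  have hB1 := C.d_B1 hr
  have hKB := C.d_KB hr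
  have hGB := C.d_GB hr
  have t1 := hB1.fun_mul (hy2.const_add 1)
  have t2 := hKB.fun_mul (hy2.const_sub 2)
  have t3 := (hy2.const_mul 3).fun_mul (hq.fun_sub hY)
  have t4 := hGB.fun_mul (hy2.const_add 1)
  have t5 := (((t1.fun_add t2).fun_sub t3).fun_add t4).div_const 2
  have key := ((hA1.const_add C.a).fun_add (hKA.const_mul 2)).fun_add t5
  refine key.congr_deriv ?_
  simp only [Pv.dP]
  simp only [LinCert.pv]
  ring

/-- derivative of `B_true = Pv.B / y` times `y` ... in the form used by `OKr` -/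
theorem LinCert.d_B (C : LinCert R) {r : ℝ} (hr : 0 < r) (m p ρ : ℝ) :
    HasDerivAt (fun r => (C.pv r).B m p ρ)
      (((C.pv r).dB m p ρ + wf r ^ 2 / 2 * (C.pv r).B m p ρ) / xf r) r := by
  have hy := ll_y (Real.tanh R) hr
  have hq := ll_comp C.hq hr
  have hY := ll_comp C.hY hr
  have hA1 := C.d_A1 hr
  have hKA := C.d_KA hr
  have hB1 := C.d_B1 hr
  have hKB := C.d_KB hr
  have hGB := C.d_GB hr
  have t1 := (((hA1.mul_const (1 - 2 * m ^ 2 + p)).const_add C.a).fun_add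
    (hKA.mul_const (2 + 2 * m ^ 2 - p))).fun_sub
      ((((hy.fun_mul (hq.fun_sub hY)).mul_const m).fun_add (hY.mul_const p)).const_mul 3)
  have t2 := (((hB1.mul_const (1 - p)).fun_add (hKB.mul_const (2 + p))).fun_add
    (hGB.mul_const ρ)).const_mul m
  have key := (hy.fun_mul t1).fun_add t2
  refine key.congr_deriv ?_
  simp only [Pv.dB, Pv.B]
  simp only [LinCert.pv]
  ring

theorem ll_sinh {r : ℝ} (hr : 0 < r) :
    HasDerivAt (fun r => Real.sinh r ^ 3)
      (Real.sinh r ^ 3 * (3 / 2 * (2 - wf r ^ 2)) / xf r) r := by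
  refine ((Real.hasDerivAt_sinh r).fun_pow 3).congr_deriv ?_
  have h1 : Real.cosh r = (2 - wf r ^ 2) / wf r ^ 2 := by
    rw [cosh_eq_xf]
    have h := xf_sq_add_wf_sq r
    have h1 : 1 + xf r ^ 2 = 2 - wf r ^ 2 := by linarith
    rw [h1]
  rw [h1, sinh_eq_xf]
  have hx := (xf_pos hr).ne'
  have hw := (wf_pos r).ne'
  simp only [Nat.cast_ofNat, show (3 - 1 : ℕ) = 2 from rfl]
  rw [div_pow, div_pow]
  field_simp

theorem sinh_three (r : ℝ) : Real.sinh r ^ 3 = 8 * xf r ^ 3 / wf r ^ 6 := by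
  rw [sinh_eq_xf, div_pow]
  ring

/-! ### the function `f` -/

/-- `sinh^3 r * b / y^2` -/
noncomputable def LinCert.K (C : LinCert R) (r : ℝ) : ℝ :=
  Real.sinh r ^ 3 * (C.pv r).b / (xf r / Real.tanh R) ^ 2

theorem LinCert.okl' (C : LinCert R) (hR : 0 < R) {r : ℝ} (hr : 0 < r) (hr2 : r ≤ 2 * R) :
    (C.pv r).OKl (Real.tanh R) := by
  have h := chord_cos hR r hr hr2
  exact C.okl _ _ (wf_pos r) (wf_lt_one hr) h.1 h.2 (C.y_sq hR r)

theorem ll_tanh_le {r s : ℝ} (h : r ≤ s) : Real.tanh r ≤ Real.tanh s := by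
  rw [Real.tanh_eq_sinh_div_cosh, Real.tanh_eq_sinh_div_cosh,
    div_le_div_iff₀ (Real.cosh_pos _) (Real.cosh_pos _)]
  have h1 : Real.sinh (s - r) = Real.sinh s * Real.cosh r - Real.cosh s * Real.sinh r :=
    Real.sinh_sub s r
  have h2 : 0 ≤ Real.sinh (s - r) := Real.sinh_nonneg_iff.2 (by linarith)
  linarith

theorem LinCert.okr' (C : LinCert R) (hR : 0 < R) {r : ℝ} (hr : 2 * R < r) :
    (C.pv r).OKr := by
  have hr0 : 0 < r := by linarith
  have hT := tanh_pos hR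
  have h : 1 ≤ xf r / Real.tanh R := by
    rw [le_div_iff₀ hT, one_mul]
    exact ll_tanh_le (by linarith)
  exact C.okr _ _ (wf_pos r) (wf_lt_one hr0) h (C.y_sq hR r)

theorem LinCert.d_K (C : LinCert R) (hR : 0 < R) {r : ℝ} (hr : 0 < r) (hr2 : r ≤ 2 * R) :
    HasDerivAt C.K (12 - 8 * Real.tanh R ^ 2 * (C.pv r).P / wf r ^ 4) r := by
  have hT := (tanh_pos hR).ne'
  have hx := (xf_pos hr).ne'
  have hw := (wf_pos r).ne'
  have hs := ll_sinh hr
  have hb := C.d_b hr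
  have hy2 := ll_y2 (Real.tanh R) hr
  have hy2' : (xf r / Real.tanh R) ^ 2 ≠ 0 := by positivity
  have key := (hs.fun_mul hb).fun_div hy2 hy2'
  refine key.congr_deriv ?_
  have hstat := (C.okl' hR hr hr2).stat
  have e : (C.pv r).w = wf r := rfl
  rw [e] at hstat
  have hdb : (C.pv r).db = 3 / 2 * wf r ^ 6 / Real.tanh R ^ 2 - wf r ^ 2 * (C.pv r).P
      - (3 - 5 / 2 * wf r ^ 2) * (C.pv r).b := by linarith
  rw [hdb, sinh_three]
  generalize (C.pv r).b = b
  generalize (C.pv r).P = P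
  field_simp
  ring

/-- `f (rch c)` as a function of `r` -/
noncomputable def LinCert.F (C : LinCert R) (r : ℝ) : ℝ := (12 * r - C.K r) / 2

theorem LinCert.d_F (C : LinCert R) (hR : 0 < R) {r : ℝ} (hr : 0 < r) (hr2 : r ≤ 2 * R) :
    HasDerivAt C.F (4 * Real.tanh R ^ 2 * (C.pv r).P / wf r ^ 4) r := by
  have h1 : HasDerivAt (fun r : ℝ => 12 * r) 12 r := by
    simpa using (hasDerivAt_id' r).const_mul (12 : ℝ)
  refine ((h1.fun_sub (C.d_K hR hr hr2)).div_const 2).congr_deriv ?_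
  ring

/-- `f'` -/
noncomputable def LinCert.G (C : LinCert R) (c : ℝ) : ℝ :=
  8 * Real.tanh R ^ 3 * (C.pv (rch R c)).P / wf (rch R c) ^ 6

theorem LinCert.mono_Gr (C : LinCert R) (hR : 0 < R) :
    MonotoneOn (fun r => 8 * Real.tanh R ^ 3 * (C.pv r).P / wf r ^ 6) (Ioc 0 (2 * R)) := by
  have hd : ∀ r, 0 < r → r ≤ 2 * R → HasDerivAt (fun r => 8 * Real.tanh R ^ 3 * (C.pv r).P / wf r ^ 6)
      (8 * Real.tanh R ^ 3 * ((C.pv r).dP + 3 * (1 - wf r ^ 2) * (C.pv r).P)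
        / wf r ^ 6 / xf r) r := by
    intro r hr _
    have hx := (xf_pos hr).ne'
    have hw := (wf_pos r).ne'
    have h1 := (C.d_P hr).const_mul (8 * Real.tanh R ^ 3)
    have h2 : HasDerivAt (fun r => (wf r ^ 2) ^ 3)
        (3 * (wf r ^ 2) ^ 2 * (-(wf r ^ 2 * (1 - wf r ^ 2)) / xf r)) r := by
      refine ((ll_w2 hr).fun_pow 3).congr_deriv ?_
      simp
    have e : (fun r => wf r ^ 6) = (fun r => (wf r ^ 2) ^ 3) := by
      funext r
      ring
    have h3 : HasDerivAt (fun r => wf r ^ 6)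
        (3 * (wf r ^ 2) ^ 2 * (-(wf r ^ 2 * (1 - wf r ^ 2)) / xf r)) r := by
      rw [e]
      exact h2
    refine (h1.fun_div h3 (by positivity)).congr_deriv ?_
    generalize (C.pv r).P = P
    generalize (C.pv r).dP = dP
    field_simp
    ring
  refine monotoneOn_of_deriv_nonneg (convex_Ioc _ _) ?_ ?_ ?_
  · intro r hr
    exact (hd r hr.1 hr.2).continuousAt.continuousWithinAt
  · rw [interior_Ioc]
    intro r hr
    exact (hd r hr.1 hr.2.le).differentiableAt.differentiableWithinAt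
  · rw [interior_Ioc]
    intro r hr
    rw [(hd r hr.1 hr.2.le).deriv]
    have h := (C.okl' hR hr.1 hr.2.le).conv
    have e : (C.pv r).w = wf r := rfl
    rw [e] at h
    have hx := xf_pos hr.1
    have hw := wf_pos r
    have hT := tanh_pos hR
    positivity

theorem rch_le {c : ℝ} (hR : 0 < R) (hc : 0 < c) (hc1 : c ≤ 1) : rch R c ≤ 2 * R := by
  by_contra hcon
  push Not at hcon
  have h1 : Real.tanh R * c < Real.tanh R * 1 ∨ c = 1 := by
    rcases eq_or_lt_of_le hc1 with h | h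
    · exact Or.inr h
    · exact Or.inl (mul_lt_mul_of_pos_left h (tanh_pos hR))
  rcases h1 with h1 | h1
  · have h2 := ll_tanh_le (show R ≤ rch R c / 2 by linarith)
    rw [tanh_half_rch hR hc.le hc1] at h2
    linarith
  · rw [h1, rch_one] at hcon
    exact lt_irrefl _ hcon

theorem rch_tanh {r : ℝ} (hR : 0 < R) : rch R (Real.tanh (r / 2) / Real.tanh R) = r := by
  have := (tanh_pos hR).ne'
  unfold rch
  rw [mul_div_cancel₀ _ this, Real.artanh_tanh]
  ring

theorem rch_mono {c c' : ℝ} (hR : 0 < R) (hc : 0 < c) (hcc : c ≤ c') (hc' : c' ≤ 1) :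
    rch R c ≤ rch R c' := by
  by_contra hcon
  push Not at hcon
  have h2 := ll_tanh_le (show rch R c' / 2 ≤ rch R c / 2 by linarith)
  rw [tanh_half_rch hR hc.le (hcc.trans hc'), tanh_half_rch hR (hc.le.trans hcc) hc'] at h2
  have h3 : c' ≤ c := le_of_mul_le_mul_left h2 (tanh_pos hR)
  have h4 : c = c' := le_antisymm hcc h3
  rw [h4] at hcon
  exact lt_irrefl _ hcon

theorem LinCert.G_mono (C : LinCert R) (hR : 0 < R) :
    ∀ x y, 0 < x → x ≤ y → y ≤ 1 → C.G x ≤ C.G y := by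
  intro x y hx hxy hy
  exact C.mono_Gr hR ⟨rch_pos hR hx (hxy.trans hy), rch_le hR hx (hxy.trans hy)⟩
    ⟨rch_pos hR (hx.trans_le hxy) hy, rch_le hR (hx.trans_le hxy) hy⟩ (rch_mono hR hx hxy hy)

theorem LinCert.hasDerivAt_f0 (C : LinCert R) (hR : 0 < R) {c : ℝ} (hc : 0 < c) (hc1 : c < 1) :
    HasDerivAt (fun c => C.F (rch R c)) (C.G c) c := by
  have hr := rch_pos hR hc hc1.le
  have h1 := (C.d_F hR hr (rch_le hR hc hc1.le)).comp c (hasDerivAt_rch hR hc hc1)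
  refine h1.congr_deriv ?_
  rw [LinCert.G, sinh_eq_xf, show xf (rch R c) = Real.tanh R * c from tanh_half_rch hR hc.le hc1.le]
  have hw := (wf_pos (rch R c)).ne'
  field_simp
  ring

theorem ll_rch_zero : rch R 0 = 0 := by
  unfold rch
  simp

theorem LinCert.abs_b (C : LinCert R) (hR : 0 < R) {r : ℝ} (hr : 0 < r) (hr2 : r ≤ 2 * R) :
    |(C.pv r).b| ≤ C.a + 8 * C.M := by
  have h := chord_cos hR r hr hr2
  obtain ⟨hq, hdq, -, -⟩ := C.bdd _ (wf_pos r) (wf_lt_one hr)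
  have hw := wf_pos r
  have hw1 := wf_lt_one hr
  have hM : 0 ≤ C.M := (abs_nonneg _).trans hq
  have ha := C.a_pos
  have hy0 : 0 < xf r / Real.tanh R := h.1
  have hy1 : xf r / Real.tanh R ≤ 1 := h.2
  simp only [Pv.b, LinCert.pv]
  generalize xf r / Real.tanh R = y at hy0 hy1
  generalize wf r = w at hw hw1 hq hdq
  generalize C.q w = q at hq
  generalize C.dq w = dq at hdq
  have hy2 : y ^ 2 ≤ 1 := by nlinarith
  have hy2' : 0 ≤ y ^ 2 := sq_nonneg y
  have hw2 : w ^ 2 ≤ 1 := by nlinarith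
  have hw2' : 0 ≤ w ^ 2 := sq_nonneg w
  have m1 : ∀ {u v A B : ℝ}, |u| ≤ A → |v| ≤ B → |u * v| ≤ A * B := fun {u v A B} hu hv => by
    rw [abs_mul]
    exact mul_le_mul hu hv (abs_nonneg _) ((abs_nonneg _).trans hu)
  have e1 : |(1 - y ^ 2) * (w ^ 2 * q / 2 + dq)| ≤ 1 * (C.M / 2 + C.M) := by
    refine m1 ?_ ?_
    · rw [abs_of_nonneg (by linarith)]
      linarith
    · refine (abs_add_le _ _).trans (add_le_add ?_ hdq)
      have : |w ^ 2 * q| ≤ 1 * C.M := m1 (by rw [abs_of_nonneg hw2']; exact hw2) hq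
      rw [abs_div, abs_of_pos (by norm_num : (0 : ℝ) < 2)]
      linarith
  have e2 : |(2 - w ^ 2) * q * (2 + y ^ 2) / 2| ≤ 3 * C.M := by
    have e3 : (2 - w ^ 2) * q * (2 + y ^ 2) / 2 = ((2 - w ^ 2) * (2 + y ^ 2) / 2) * q := by ring
    rw [e3]
    refine m1 ?_ hq
    rw [abs_of_nonneg (by
      refine div_nonneg (mul_nonneg (by linarith) (by linarith)) (by norm_num))]
    nlinarith
  have e4 : |3 * y ^ 2 * q| ≤ 3 * C.M := by
    refine m1 ?_ hq
    rw [abs_of_nonneg (by positivity)]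
    linarith
  have t1 := abs_sub (C.a + (1 - y ^ 2) * (w ^ 2 * q / 2 + dq)
    + (2 - w ^ 2) * q * (2 + y ^ 2) / 2) (3 * y ^ 2 * q)
  have t2 := abs_add_le (C.a + (1 - y ^ 2) * (w ^ 2 * q / 2 + dq)) ((2 - w ^ 2) * q * (2 + y ^ 2) / 2)
  have t3 := abs_add_le C.a ((1 - y ^ 2) * (w ^ 2 * q / 2 + dq))
  rw [abs_of_pos ha] at t3
  linarith

theorem LinCert.K_cont (C : LinCert R) (hR : 0 < R) : ContinuousWithinAt C.K (Ici 0) 0 := by
  have hT := tanh_pos hR
  have h0 : C.K 0 = 0 := by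
    simp [LinCert.K]
  rw [← Ioi_insert, continuousWithinAt_insert_self, ContinuousWithinAt, h0]
  have hg : Continuous fun r => 8 * xf r * Real.tanh R ^ 2 * (C.a + 8 * C.M) / wf r ^ 6 := by
    refine Continuous.div ?_ (continuous_wf.pow 6) (fun r => (pow_pos (wf_pos r) 6).ne')
    exact (((continuous_const.mul continuous_xf).mul continuous_const).mul continuous_const)
  have hg0 : Tendsto (fun r => 8 * xf r * Real.tanh R ^ 2 * (C.a + 8 * C.M) / wf r ^ 6)
      (𝓝[>] 0) (𝓝 0) := by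
    have h1 := (hg.tendsto 0).mono_left (nhdsWithin_le_nhds (s := Ioi 0))
    have h2 : xf 0 = 0 := by simp [xf]
    rw [h2] at h1
    simpa using h1
  refine squeeze_zero_norm' ?_ hg0
  have hmem : Ioo 0 (2 * R) ∈ 𝓝[>] (0 : ℝ) := Ioo_mem_nhdsGT (by linarith)
  filter_upwards [hmem] with r hr
  have hb := C.abs_b hR hr.1 hr.2.le
  have hx := xf_pos hr.1
  have hw := wf_pos r
  rw [LinCert.K, sinh_three, Real.norm_eq_abs]
  have e : 8 * xf r ^ 3 / wf r ^ 6 * (C.pv r).b / (xf r / Real.tanh R) ^ 2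
      = (8 * xf r * Real.tanh R ^ 2 / wf r ^ 6) * (C.pv r).b := by
    generalize (C.pv r).b = b
    field_simp
  rw [e, abs_mul, abs_of_pos (by positivity)]
  calc 8 * xf r * Real.tanh R ^ 2 / wf r ^ 6 * |(C.pv r).b|
      ≤ 8 * xf r * Real.tanh R ^ 2 / wf r ^ 6 * (C.a + 8 * C.M) :=
        mul_le_mul_of_nonneg_left hb (by positivity)
    _ = _ := by ring

theorem LinCert.f0_cont (C : LinCert R) (hR : 0 < R) :
    ContinuousOn (fun c => C.F (rch R c)) (Icc 0 1) := by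
  intro c hc
  rcases eq_or_lt_of_le hc.1 with h | h
  · subst h
    have h1 : ContinuousWithinAt C.F (Ici 0) (rch R 0) := by
      rw [ll_rch_zero]
      have : ContinuousWithinAt (fun r : ℝ => 12 * r) (Ici 0) 0 := by fun_prop
      exact (this.sub (C.K_cont hR)).div_const 2
    refine h1.comp (continuousOn_rch hR 0 hc) ?_
    intro c hc'
    rcases eq_or_lt_of_le hc'.1 with h | h
    · rw [← h, ll_rch_zero]
      exact self_mem_Ici
    · exact (rch_pos hR h hc'.2).le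
  · exact (C.d_F hR (rch_pos hR h hc.2) (rch_le hR h hc.2)).continuousAt.comp_continuousWithinAt
      (continuousOn_rch hR c hc)

/-- `f` -/
noncomputable def LinCert.f (C : LinCert R) (c : ℝ) : ℝ := C.F (rch R (max 0 (min c 1)))

theorem LinCert.f_eq (C : LinCert R) {c : ℝ} (hc : 0 ≤ c) (hc1 : c ≤ 1) :
    C.f c = C.F (rch R c) := by
  rw [LinCert.f, min_eq_left hc1, max_eq_right hc]

theorem LinCert.f_cont (C : LinCert R) (hR : 0 < R) : Continuous C.f := by
  refine (C.f0_cont hR).comp_continuous (by fun_prop) fun c => ?_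
  exact ⟨le_max_left _ _, max_le zero_le_one (min_le_right _ _)⟩

theorem LinCert.G_nonneg (C : LinCert R) (hR : 0 < R) {c : ℝ} (hc : 0 < c) (hc1 : c ≤ 1) :
    0 ≤ C.G c := by
  have h := (C.okl' hR (rch_pos hR hc hc1) (rch_le hR hc hc1)).P_nonneg
  have hT := tanh_pos hR
  have hw := wf_pos (rch R c)
  unfold LinCert.G
  positivity

theorem LinCert.f_nonneg (C : LinCert R) (hR : 0 < R) (c : ℝ) : 0 ≤ C.f c := by
  have hmono : MonotoneOn (fun c => C.F (rch R c)) (Icc 0 1) := by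
    refine monotoneOn_of_deriv_nonneg (convex_Icc _ _) (C.f0_cont hR) ?_ ?_
    · rw [interior_Icc]
      intro c hc
      exact (C.hasDerivAt_f0 hR hc.1 hc.2).differentiableAt.differentiableWithinAt
    · rw [interior_Icc]
      intro c hc
      rw [(C.hasDerivAt_f0 hR hc.1 hc.2).deriv]
      exact C.G_nonneg hR hc.1 hc.2.le
  have hm : max 0 (min c 1) ∈ Icc (0 : ℝ) 1 :=
    ⟨le_max_left _ _, max_le zero_le_one (min_le_right _ _)⟩
  have h := hmono ⟨le_refl _, zero_le_one⟩ hm hm.1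
  have h0 : C.F (rch R 0) = 0 := by
    rw [ll_rch_zero]
    simp [LinCert.F, LinCert.K]
  simp only at h
  rw [h0] at h
  exact h

theorem LinCert.hasDerivAt_f (C : LinCert R) (hR : 0 < R) {c : ℝ} (hc : 0 < c) (hc1 : c < 1) :
    HasDerivAt C.f (C.G c) c := by
  refine (C.hasDerivAt_f0 hR hc hc1).congr_of_eventuallyEq ?_
  filter_upwards [Ioo_mem_nhds hc hc1] with x hx
  exact C.f_eq hx.1.le hx.2.le

/-! ### the root -/

/-- upper bound of `sqrt ((1 - c^2) (1 - c'^2))`, affine in `p` -/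
noncomputable def rhos (m p : ℝ) : ℝ :=
  if m ≤ 1 / 2 then 1 - 2 * m ^ 2 + p else 1 - m ^ 2 + (1 + m ^ 2) * (p - m ^ 2) / (1 - m ^ 2)

theorem root_le {c c' : ℝ} (hc : 0 ≤ c) (hc1 : c ≤ 1) (hc' : 0 ≤ c') (hc1' : c' ≤ 1) :
    Real.sqrt ((1 - c ^ 2) * (1 - c' ^ 2)) ≤ rhos ((c + c') / 2) (c * c') := by
  obtain ⟨m, hm⟩ : ∃ m, m = (c + c') / 2 := ⟨_, rfl⟩
  obtain ⟨p, hp⟩ : ∃ p, p = c * c' := ⟨_, rfl⟩
  have e : (1 - c ^ 2) * (1 - c' ^ 2) = (1 + p) ^ 2 - 4 * m ^ 2 := by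
    rw [hm, hp]; ring
  have hp1 : p ≤ m ^ 2 := by rw [hm, hp]; nlinarith [sq_nonneg (c - c')]
  have hp2 : 2 * m - 1 ≤ p := by rw [hm, hp]; nlinarith
  have hp0 : 0 ≤ p := by rw [hp]; positivity
  have hm0 : 0 ≤ m := by rw [hm]; positivity
  have hm1 : m ≤ 1 := by rw [hm]; linarith
  rw [← hm, ← hp, e, rhos]
  split_ifs with h
  · refine Real.sqrt_le_iff.2 ⟨by nlinarith, ?_⟩
    nlinarith [sq_nonneg (m ^ 2 - p)]
  · push Not at h
    rcases eq_or_lt_of_le hm1 with h1 | h1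
    · have hp3 : p = 1 := by
        rw [h1] at hp1 hp2
        linarith
      rw [h1, hp3]
      norm_num
    · have hu : 0 < 1 - m ^ 2 := by nlinarith
      have hδ : 0 ≤ m ^ 2 - p := by linarith
      have hδ2 : m ^ 2 - p ≤ (1 - m) ^ 2 := by nlinarith
      have hv : (1 + m ^ 2) * (m ^ 2 - p) ≤ (1 - m ^ 2) ^ 2 := by
        have a1 : (1 + m ^ 2) * (m ^ 2 - p) ≤ (1 + m) ^ 2 * (1 - m) ^ 2 := by
          refine mul_le_mul ?_ hδ2 hδ (sq_nonneg _)
          nlinarith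
        calc _ ≤ _ := a1
          _ = _ := by ring
      have e2 : 1 - m ^ 2 + (1 + m ^ 2) * (p - m ^ 2) / (1 - m ^ 2)
          = ((1 - m ^ 2) ^ 2 - (1 + m ^ 2) * (m ^ 2 - p)) / (1 - m ^ 2) := by
        field_simp
        ring
      rw [e2]
      refine Real.sqrt_le_iff.2 ⟨div_nonneg (by linarith) hu.le, ?_⟩
      rw [div_pow, le_div_iff₀ (by positivity)]
      have e3 : ((1 - m ^ 2) ^ 2 - (1 + m ^ 2) * (m ^ 2 - p)) ^ 2
          - ((1 + p) ^ 2 - 4 * m ^ 2) * (1 - m ^ 2) ^ 2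
          = 4 * m ^ 2 * (m ^ 2 - p) ^ 2 := by ring
      nlinarith [mul_nonneg (mul_nonneg (by norm_num : (0 : ℝ) ≤ 4) (sq_nonneg m))
        (sq_nonneg (m ^ 2 - p))]

theorem rhos_sq (m : ℝ) : rhos m (m ^ 2) = 1 - m ^ 2 := by
  unfold rhos
  split_ifs
  · ring
  · simp

theorem rhos_edge {m : ℝ} (hm : 1 / 2 < m) (hm1 : m ≤ 1) :
    rhos m (2 * m - 1) = 2 * m * (1 - m) / (1 + m) := by
  unfold rhos
  rw [if_neg (by linarith)]
  rcases eq_or_lt_of_le hm1 with h1 | h1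
  · rw [h1]
    norm_num
  · have hu : 1 - m ^ 2 ≠ 0 := by
      have : 0 < 1 - m ^ 2 := by nlinarith
      exact this.ne'
    have hv : 1 + m ≠ 0 := by positivity
    have e : 1 - m ^ 2 = (1 - m) * (1 + m) := by ring
    have h2 : 1 - m ≠ 0 := by
      intro h
      rw [e, h, zero_mul] at hu
      exact hu rfl
    rw [e]
    field_simp
    ring

theorem rhos_zero {m : ℝ} (hm : m ≤ 1 / 2) : rhos m 0 = 1 - 2 * m ^ 2 := by
  unfold rhos
  rw [if_pos hm]
  ring

theorem rhos_lin (m p : ℝ) : rhos m p = rhos m 0 + p * (rhos m 1 - rhos m 0) := by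
  unfold rhos
  split_ifs <;> ring

/-- an affine function of `p = c c'` is nonnegative if it is so at the ends -/
theorem lin_p {L : ℝ → ℝ} (hL : ∀ p, L p = L 0 + p * (L 1 - L 0)) {c c' : ℝ} (hc : 0 ≤ c)
    (hc1 : c ≤ 1) (hc' : 0 ≤ c') (hc1' : c' ≤ 1) (hd : 0 ≤ L (((c + c') / 2) ^ 2))
    (h0 : (c + c') / 2 ≤ 1 / 2 → 0 ≤ L 0)
    (h1 : 1 / 2 < (c + c') / 2 → 0 ≤ L (2 * ((c + c') / 2) - 1)) : 0 ≤ L (c * c') := by
  obtain ⟨m, hm⟩ : ∃ m, m = (c + c') / 2 := ⟨_, rfl⟩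
  have hp1 : c * c' ≤ m ^ 2 := by rw [hm]; nlinarith [sq_nonneg (c - c')]
  have hp2 : 2 * m - 1 ≤ c * c' := by rw [hm]; nlinarith
  have hp0 : 0 ≤ c * c' := by positivity
  rw [← hm] at hd h0 h1
  rw [hL] at hd ⊢
  rcases le_total 0 (L 1 - L 0) with h | h
  · rcases le_or_gt m (1 / 2) with hm2 | hm2
    · have := h0 hm2
      nlinarith [mul_nonneg hp0 h]
    · have h3 := h1 hm2
      rw [hL] at h3
      nlinarith [mul_le_mul_of_nonneg_right hp2 h]
  · nlinarith [mul_le_mul_of_nonpos_right hp1 h]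

/-- (T1) at a point -/
theorem Pv.T1 {v : Pv} {hk T c c' : ℝ} (hy : 0 < v.y) (ho : v.OK hk) (hl : v.OKl T)
    (hc : 0 ≤ c) (hc1 : c ≤ 1) (hc' : 0 ≤ c') (hc1' : c' ≤ 1) :
    c * c' * (v.y * v.b - 2 * v.P * ((c + c') / 2 - v.y))
      ≤ v.y ^ 2 * v.B ((c + c') / 2) (c * c') (rhos ((c + c') / 2) (c * c')) := by
  obtain ⟨m, hm⟩ : ∃ m, m = (c + c') / 2 := ⟨_, rfl⟩
  have hm0 : 0 ≤ m := by rw [hm]; positivity
  have hm1 : m ≤ 1 := by rw [hm]; linarith
  have hGB : v.GB ≤ 0 := by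
    unfold Pv.GB
    have := mul_nonneg (sq_nonneg v.w) (neg_nonneg.2 ho.Y_np)
    linarith
  rw [← hm]
  obtain ⟨L, hL⟩ : ∃ L : ℝ → ℝ, ∀ p, L p = v.y ^ 2 * v.B m p (rhos m p)
      - p * (v.y * v.b - 2 * v.P * (m - v.y)) := ⟨_, fun _ => rfl⟩
  have key : 0 ≤ L (c * c') := by
    refine lin_p ?_ hc hc1 hc' hc1' ?_ ?_ ?_
    · intro p
      rw [hL p, hL 0, hL 1, rhos_lin m p]
      simp only [Pv.B]
      ring
    · rw [← hm, hL, rhos_sq]
      have e : v.y ^ 2 * v.B m (m ^ 2) (1 - m ^ 2) - m ^ 2 * (v.y * v.b - 2 * v.P * (m - v.y))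
          = (m - v.y) ^ 2 * ((1 - m) * (v.y * (v.a + v.A1 + 2 * v.KA))
            + m * (v.y * (v.a + v.A1 + 2 * v.KA) + v.y ^ 2 * (- v.B1 + v.KB - v.GB) + 2 * v.P)) := by
        simp only [Pv.B, Pv.b, Pv.P, Pv.A1, Pv.KA, Pv.B1, Pv.KB, Pv.GB]
        ring
      rw [e]
      have h1 : 0 ≤ v.y * (v.a + v.A1 + 2 * v.KA) := by
        have h := ho.p3a 0 le_rfl (by norm_num)
        have e2 : v.B 0 0 0 = v.y * (v.a + v.A1 + 2 * v.KA) := by
          simp only [Pv.B]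
          ring
        rw [e2] at h
        linarith
      have h2 := hl.qa
      have h3 : 0 ≤ 1 - m := by linarith
      positivity
    · rw [← hm]
      intro h
      rw [hL, rhos_zero h, zero_mul, sub_zero]
      have h1 := ho.p3a m hm0 h
      have e : v.B m 0 (1 - 2 * m ^ 2) = v.B m 0 0 + m * (1 - 2 * m ^ 2) * v.GB := by
        simp only [Pv.B]
        ring
      rw [e]
      refine mul_nonneg (sq_nonneg _) ?_
      have h2 : m * (1 - 2 * m ^ 2) ≤ 1 / 2 := by nlinarith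
      nlinarith
    · rw [← hm]
      intro h
      rw [hL, rhos_edge h hm1]
      have h1 := hl.qb m h.le hm1
      have hv : 0 < 1 + m := by positivity
      have e : v.y ^ 2 * v.B m (2 * m - 1) (2 * m * (1 - m) / (1 + m))
          - (2 * m - 1) * (v.y * v.b - 2 * v.P * (m - v.y))
          = (v.y ^ 2 * ((1 + m) * v.B m (2 * m - 1) 0 + 2 * m ^ 2 * (1 - m) * v.GB)
            + (1 + m) * (2 * m - 1) * (2 * v.P * (m - v.y) - v.y * v.b)) / (1 + m) := by
        simp only [Pv.B]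
        field_simp
        ring
      rw [e]
      exact div_nonneg h1 hv.le
  rw [hL] at key
  linarith

/-- (T2) at a point -/
theorem Pv.T2 {v : Pv} {c c' : ℝ} (hw : v.w ^ 2 ≤ 1) (hr : v.OKr)
    (hc : 0 ≤ c) (hc1 : c ≤ 1) (hc' : 0 ≤ c') (hc1' : c' ≤ 1) :
    3 / 2 * (c * c') * v.w ^ 6 * v.y
      ≤ (1 - v.w ^ 2) * (v.dB ((c + c') / 2) (c * c') (rhos ((c + c') / 2) (c * c'))
        + 3 / 2 * (2 - v.w ^ 2) * v.B ((c + c') / 2) (c * c') (rhos ((c + c') / 2) (c * c'))) := by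
  obtain ⟨m, hm⟩ : ∃ m, m = (c + c') / 2 := ⟨_, rfl⟩
  have hm0 : 0 ≤ m := by rw [hm]; positivity
  have hm1 : m ≤ 1 := by rw [hm]; linarith
  rw [← hm]
  obtain ⟨L, hL⟩ : ∃ L : ℝ → ℝ, ∀ p, L p = (1 - v.w ^ 2) * (v.dB m p (rhos m p)
        + 3 / 2 * (2 - v.w ^ 2) * v.B m p (rhos m p)) - 3 / 2 * p * v.w ^ 6 * v.y :=
    ⟨_, fun _ => rfl⟩
  have key : 0 ≤ L (c * c') := by
    refine lin_p ?_ hc hc1 hc' hc1' ?_ ?_ ?_
    · intro p
      rw [hL p, hL 0, hL 1, rhos_lin m p]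
      simp only [Pv.B, Pv.dB]
      ring
    · rw [← hm, hL, rhos_sq]
      have := hr.h1 m hm0 hm1
      linarith
    · rw [← hm]
      intro h
      rw [hL, rhos_zero h]
      have := mul_nonneg (sub_nonneg.2 hw) (hr.h3 m hm0 h)
      linarith
    · rw [← hm]
      intro h
      rw [hL, rhos_edge h hm1]
      have := hr.h2 m h.le hm1
      linarith
  rw [hL] at key
  linarith

/-! ### (N2) -/

theorem LinCert.B_lower (C : LinCert R) (hR : 0 < R) :
    ∀ r c c', 0 < r → 0 < c → c ≤ 1 → 0 < c' → c' ≤ 1 →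
    c * c' * (12 * r - C.f c - C.f c') ≤
      (C.a + ((C.ηr r c' * (1 - c ^ 2)
          + C.η r c' * (Real.cosh r / Real.sinh r) * (((4 : ℕ) : ℝ) - 2 + c ^ 2)
        - |c| * |C.ηc r c'| * Real.sqrt ((1 - c ^ 2) * (1 - c' ^ 2)) / Real.sinh r
        - (((4 : ℕ) : ℝ) - 1) * (Real.cosh R / Real.sinh R) * c * C.η r c')
      + (C.ηr r c * (1 - c' ^ 2)
          + C.η r c * (Real.cosh r / Real.sinh r) * (((4 : ℕ) : ℝ) - 2 + c' ^ 2)
        - |c'| * |C.ηc r c| * Real.sqrt ((1 - c' ^ 2) * (1 - c ^ 2)) / Real.sinh r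
        - (((4 : ℕ) : ℝ) - 1) * (Real.cosh R / Real.sinh R) * c' * C.η r c)) / 2)
        * Real.sinh r ^ (4 - 1) := by
  have hT := tanh_pos hR
  refine lower_of_reduction (R := R) (T := Real.tanh R) (K := C.K) (f := C.f)
    (BL := fun r c c' => Real.sinh r ^ 3 / (xf r / Real.tanh R)
      * (C.pv r).B ((c + c') / 2) (c * c') (rhos ((c + c') / 2) (c * c')))
    (DL := fun r c c' => Real.sinh r ^ 3 / (xf r * (xf r / Real.tanh R))
      * ((C.pv r).dB ((c + c') / 2) (c * c') (rhos ((c + c') / 2) (c * c'))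
        + 3 / 2 * (2 - wf r ^ 2) * (C.pv r).B ((c + c') / 2) (c * c')
          (rhos ((c + c') / 2) (c * c'))))
    (P := fun y c => C.G y * (c - y)) hR ?_ ?_ (chord_cos hR) ?_ ?_ ?_ ?_ ?_
  · -- BL ≤ BT
    intro r c c' hr hc hc1 hc' hc1'
    have hy := C.y_pos hR hr
    have ho := C.okv hR hr
    have hk := C.key hR hr ho.Y_np c c' |c| |c'| 1 (Real.sqrt ((1 - c ^ 2) * (1 - c' ^ 2)))
    have e0 : (1 - c' ^ 2) * (1 - c ^ 2) = (1 - c ^ 2) * (1 - c' ^ 2) := by ring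
    rw [e0]
    have hroot := root_le hc.le hc1 hc'.le hc1'
    obtain ⟨ρ, hρ⟩ : ∃ ρ, ρ = Real.sqrt ((1 - c ^ 2) * (1 - c' ^ 2)) := ⟨_, rfl⟩
    rw [← hρ] at hk hroot ⊢
    have hGB : (C.pv r).GB ≤ 0 := by
      unfold Pv.GB
      have := mul_nonneg (sq_nonneg (C.pv r).w) (neg_nonneg.2 ho.Y_np)
      linarith
    have hB : (C.pv r).B ((c + c') / 2) (c * c') (rhos ((c + c') / 2) (c * c'))
        ≤ (C.pv r).B ((c + c') / 2) (c * c') ρ := by
      have e : (C.pv r).B ((c + c') / 2) (c * c') ρ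
          - (C.pv r).B ((c + c') / 2) (c * c') (rhos ((c + c') / 2) (c * c'))
          = (c + c') / 2 * (-(C.pv r).GB) * (rhos ((c + c') / 2) (c * c') - ρ) := by
        simp only [Pv.B]
        ring
      have : 0 ≤ (c + c') / 2 * (-(C.pv r).GB) * (rhos ((c + c') / 2) (c * c') - ρ) :=
        mul_nonneg (mul_nonneg (by positivity) (by linarith)) (by linarith)
      linarith
    have hS : 0 < Real.sinh r ^ 3 := pow_pos (Real.sinh_pos_iff.2 hr) 3
    refine (mul_le_mul_of_nonneg_left hB (div_nonneg hS.le hy.le)).trans (le_of_eq ?_)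
    have e1 : (C.pv r).B ((c + c') / 2) (c * c') ρ
        = (C.pv r).y * (C.a + ((C.ηr r c' * (1 - c ^ 2)
        + C.η r c' * (Real.cosh r / Real.sinh r) * (2 + c ^ 2)
        - |c| * |C.ηc r c'| * ρ / Real.sinh r
        - 1 * (3 * (Real.cosh R / Real.sinh R) * c * C.η r c'))
      + (C.ηr r c * (1 - c' ^ 2) + C.η r c * (Real.cosh r / Real.sinh r) * (2 + c' ^ 2)
        - |c'| * |C.ηc r c| * ρ / Real.sinh r
        - 1 * (3 * (Real.cosh R / Real.sinh R) * c' * C.η r c))) / 2) := by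
      rw [hk, abs_of_pos hc, abs_of_pos hc']
      simp only [Pv.B]
      ring
    rw [e1]
    rw [show (4 - 1 : ℕ) = 3 from rfl, show (((4 : ℕ) : ℝ) - 2) = 2 by norm_num,
      show (((4 : ℕ) : ℝ) - 1) = 3 by norm_num]
    have e3 : ∀ S Z y : ℝ, 0 < y → S / y * (y * Z) = Z * S := by
      intro S Z y hy
      field_simp
    rw [e3 _ _ _ hy]
    ring
  · -- contact
    intro r hr hr2
    have h := chord_cos hR r hr hr2
    rw [C.f_eq h.1.le h.2, rch_tanh hR, LinCert.F]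
    ring
  · -- tangent
    exact tangent_lower (C.f_cont hR).continuousOn (fun c hc hc1 => C.hasDerivAt_f hR hc hc1)
      (C.G_mono hR)
  · -- T1
    intro r c c' hr hr2 hc hc1 hc' hc1'
    have hy := C.y_pos hR hr
    have hx := xf_pos hr
    have hw := wf_pos r
    have h := Pv.T1 hy (C.okv hR hr) (C.okl' hR hr hr2) hc.le hc1 hc'.le hc1'
    have e2 : (C.pv r).y = xf r / Real.tanh R := rfl
    beta_reduce
    have e3 : C.G (Real.tanh (r / 2) / Real.tanh R)
        = 8 * Real.tanh R ^ 3 * (C.pv r).P / wf r ^ 6 := by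
      rw [LinCert.G, rch_tanh hR]
    have e4 : Real.tanh (r / 2) = xf r := rfl
    rw [e3, e4, LinCert.K, sinh_three]
    rw [e2] at h
    have hpos : 0 < 8 * Real.tanh R ^ 3 / wf r ^ 6 := by positivity
    have h2 := mul_le_mul_of_nonneg_left h hpos.le
    refine le_trans (le_of_eq ?_) (h2.trans (le_of_eq ?_))
    · generalize (C.pv r).b = b
      generalize (C.pv r).P = P
      field_simp
      ring
    · generalize (C.pv r).B ((c + c') / 2) (c * c') (rhos ((c + c') / 2) (c * c')) = B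
      field_simp
  · -- continuity
    intro c c' _ _ _ _ r hr
    have hr0 : 0 < r := by
      have : 2 * R ≤ r := hr
      linarith
    have h1 := (ll_sinh hr0).continuousAt
    have h2 := (ll_y (Real.tanh R) hr0).continuousAt
    have h3 := (C.d_B hr0 ((c + c') / 2) (c * c') (rhos ((c + c') / 2) (c * c'))).continuousAt
    exact ((h1.div h2 (div_pos (xf_pos hr0) hT).ne').mul h3).continuousWithinAt
  · -- derivative
    intro r c c' hr _ _ _ _
    have hr0 : 0 < r := by linarith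
    have hx := (xf_pos hr0).ne'
    have hy : xf r / Real.tanh R ≠ 0 := (div_pos (xf_pos hr0) hT).ne'
    have h1 := ll_sinh hr0
    have h2 := ll_y (Real.tanh R) hr0
    have h3 := C.d_B hr0 ((c + c') / 2) (c * c') (rhos ((c + c') / 2) (c * c'))
    refine ((h1.fun_div h2 hy).fun_mul h3).congr_deriv ?_
    generalize (C.pv r).B ((c + c') / 2) (c * c') (rhos ((c + c') / 2) (c * c')) = B
    generalize (C.pv r).dB ((c + c') / 2) (c * c') (rhos ((c + c') / 2) (c * c')) = dB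
    generalize xf r / Real.tanh R = y at hy
    field_simp
    ring
  · -- T2
    intro r c c' hr hc hc1 hc' hc1'
    have hr0 : 0 < r := by linarith
    have hx := xf_pos hr0
    have hw := wf_pos r
    have hy := C.y_pos hR hr0
    have hw1 : (C.pv r).w ^ 2 ≤ 1 := by
      have e : (C.pv r).w = wf r := rfl
      rw [e]
      have := wf_lt_one hr0
      nlinarith
    have h := Pv.T2 hw1 (C.okr' hR hr) hc.le hc1 hc'.le hc1'
    have e1 : (C.pv r).w = wf r := rfl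
    rw [e1] at h
    have e2 : (C.pv r).y = xf r / Real.tanh R := rfl
    beta_reduce
    rw [e2] at h
    have hx2 : 1 - wf r ^ 2 = xf r ^ 2 := by linarith [xf_sq_add_wf_sq r]
    rw [hx2] at h
    rw [sinh_three]
    have hpos : 0 < 8 / (wf r ^ 6 * (xf r / Real.tanh R)) := by
      have : 0 < xf r / Real.tanh R := by positivity
      positivity
    have h2 := mul_le_mul_of_nonneg_left h hpos.le
    refine le_trans (le_of_eq ?_) (h2.trans (le_of_eq ?_))
    · field_simp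
      norm_num
    · generalize (C.pv r).B ((c + c') / 2) (c * c') (rhos ((c + c') / 2) (c * c')) = B
      generalize (C.pv r).dB ((c + c') / 2) (c * c') (rhos ((c + c') / 2) (c * c')) = dB
      field_simp

end Vale.Agent.Lib.P219.Lin
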