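import Vale.Agent.Lib.P219.K.Lin.Reduce

/-!
# P219, curvature `-1`: paths towards the diagonal

For fixed `r` the lower bound of the kernel is `S * b.B m p`, `m = (c + c') / 2`, `p = c c'`, with
`b.B` linear in `p`.  Off-diagonal pairs are reduced to the diagonal

* along `m` constant if `m ≤ 1 / (2 X0)`;
* along `(1/c - X0) (1/c' - X0)` constant if `m ≥ 1 / (2 X0)`.
-/

namespace Vale.Agent.Lib.P219.Lin

open Set

/-- coefficients of the polynomial lower bound of the kernel -/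
structure Co where
  b00 : ℝ
  bm : ℝ
  bS : ℝ
  bp : ℝ
  bmp : ℝ
  bmS : ℝ

/-- the bound, `m = (c + c') / 2`, `p = c c'`, so `2 m ^ 2 - p = (c ^ 2 + c' ^ 2) / 2` -/
def Co.B (b : Co) (m p : ℝ) : ℝ :=
  b.b00 + b.bm * m + b.bS * (2 * m ^ 2 - p) + b.bp * p + b.bmp * m * p
    + b.bmS * m * (2 * m ^ 2 - p)

/-- the value at `p = 0` -/
def Co.r0 (b : Co) (m : ℝ) : ℝ :=
  b.b00 + b.bm * m + 2 * b.bS * m ^ 2 + 2 * b.bmS * m ^ 3

/-- derivative along `(1/c - X0) (1/c' - X0)` constant -/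
noncomputable def Co.J (b : Co) (X0 m p : ℝ) : ℝ :=
  X0 * b.b00 + b.bm / 2 + 2 * b.bS * m * (1 - X0 * m) + b.bmp * p * (1 / 2 - X0 * m)
    + b.bmS * (3 * m ^ 2 - 4 * X0 * m ^ 3 - p / 2 + X0 * m * p)

/-- `B / p` in the variables `Σ = 1/c + 1/c'`, `Π = X0 Σ + k = 1/(c c')` -/
noncomputable def Co.E (b : Co) (X0 k σ : ℝ) : ℝ :=
  (X0 * σ + k) * b.b00 + b.bm * σ / 2 + b.bS * (σ ^ 2 / (2 * (X0 * σ + k)) - 1) + b.bp
    + b.bmp * (σ / (2 * (X0 * σ + k)))
    + b.bmS * (σ ^ 3 / (4 * (X0 * σ + k) ^ 2) - σ / (2 * (X0 * σ + k)))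

theorem Co.E_eq (b : Co) {X0 k σ : ℝ} (h : 0 < X0 * σ + k) :
    b.E X0 k σ = (X0 * σ + k) * b.B (σ / (2 * (X0 * σ + k))) (1 / (X0 * σ + k)) := by
  have h' : X0 * σ + k ≠ 0 := h.ne'
  simp only [Co.E, Co.B]
  generalize X0 * σ + k = q at h h'
  field_simp
  ring

theorem Co.hasDerivAt_E (b : Co) {X0 k σ : ℝ} (h : 0 < X0 * σ + k) :
    HasDerivAt (b.E X0 k) (b.J X0 (σ / (2 * (X0 * σ + k))) (1 / (X0 * σ + k))) σ := by
  have h' : X0 * σ + k ≠ 0 := h.ne'
  have hid : HasDerivAt (fun σ : ℝ => σ) 1 σ := hasDerivAt_id' σ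
  have hP : HasDerivAt (fun σ : ℝ => X0 * σ + k) X0 σ := by
    simpa using (hid.const_mul X0).add_const k
  have hP2 : HasDerivAt (fun σ : ℝ => 2 * (X0 * σ + k)) (2 * X0) σ := hP.const_mul 2
  have h2' : 2 * (X0 * σ + k) ≠ 0 := by positivity
  have hs2 : HasDerivAt (fun σ : ℝ => σ ^ 2) (2 * σ) σ := by
    simpa using hid.fun_pow 2
  have hs3 : HasDerivAt (fun σ : ℝ => σ ^ 3) (3 * σ ^ 2) σ := by
    simpa using hid.fun_pow 3
  have hP4 : HasDerivAt (fun σ : ℝ => 4 * (X0 * σ + k) ^ 2) (4 * (2 * (X0 * σ + k) * X0)) σ := by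
    simpa using (hP.fun_pow 2).const_mul 4
  have h4' : 4 * (X0 * σ + k) ^ 2 ≠ 0 := by positivity
  have t1 := hP.mul_const b.b00
  have t2 := (hid.const_mul b.bm).div_const 2
  have t3 := ((hs2.fun_div hP2 h2').sub_const 1).const_mul b.bS
  have t4 := (hid.fun_div hP2 h2').const_mul b.bmp
  have t5 := ((hs3.fun_div hP4 h4').fun_sub (hid.fun_div hP2 h2')).const_mul b.bmS
  have key := ((((t1.fun_add t2).fun_add t3).add_const b.bp).fun_add t4).fun_add t5
  have e : (fun σ : ℝ => (X0 * σ + k) * b.b00 + b.bm * σ / 2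
      + b.bS * (σ ^ 2 / (2 * (X0 * σ + k)) - 1) + b.bp + b.bmp * (σ / (2 * (X0 * σ + k)))
      + b.bmS * (σ ^ 3 / (4 * (X0 * σ + k) ^ 2) - σ / (2 * (X0 * σ + k)))) = b.E X0 k := rfl
  rw [e] at key
  refine key.congr_deriv ?_
  simp only [Co.J]
  generalize hq : X0 * σ + k = q at h h'
  field_simp
  ring

/-- a function linear in `p` -/
theorem Co.J_nonneg (b : Co) {X0 m p : ℝ} (h1 : 0 ≤ b.J X0 m (m ^ 2))
    (h2 : 0 ≤ b.J X0 m (2 * m - 1)) (hp1 : p ≤ m ^ 2) (hp2 : 2 * m - 1 ≤ p) :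
    0 ≤ b.J X0 m p := by
  have hlin : ∀ p, b.J X0 m p = b.J X0 m 0 + p * (b.J X0 m 1 - b.J X0 m 0) := by
    intro p
    simp only [Co.J]
    ring
  rw [hlin] at h1 h2 ⊢
  rcases le_total 0 (b.J X0 m 1 - b.J X0 m 0) with h | h
  · nlinarith [mul_nonneg h (sub_nonneg.2 hp2)]
  · nlinarith [mul_nonneg (neg_nonneg.2 h) (sub_nonneg.2 hp1)]

/-- `f c + f c' ≥ 2 f c0` if `(1/c - X0) (1/c' - X0) = (1/c0 - X0) ^ 2` -/
theorem geo_convex {f G : ℝ → ℝ} {X0 : ℝ} (hX0 : 0 < X0) (hX1 : X0 < 1)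
    (hf : ContinuousOn f (Ioc 0 1)) (hf' : ∀ c, 0 < c → c < 1 → HasDerivAt f (G c) c)
    (hW : ∀ x y, 0 < x → x ≤ y → y ≤ 1 → x * (1 - X0 * x) * G x ≤ y * (1 - X0 * y) * G y)
    {κ u : ℝ} (hκ : 0 < κ) (hu : κ ≤ u) (hu' : 1 - X0 ≤ κ ^ 2 / u) :
    2 * f (1 / (X0 + κ)) ≤ f (1 / (X0 + u)) + f (1 / (X0 + κ ^ 2 / u)) := by
  have hu0 : 0 < u := hκ.trans_le hu
  have hκ1 : 1 - X0 ≤ κ := by
    refine hu'.trans ?_
    rw [div_le_iff₀ hu0]
    nlinarith
  set Ψ : ℝ → ℝ := fun v => f (1 / (X0 + v)) + f (1 / (X0 + κ ^ 2 / v)) with hΨ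
  -- ranges
  have hv2 : ∀ v, κ ≤ v → v ≤ u → 1 - X0 ≤ κ ^ 2 / v := by
    intro v hv hvu
    refine hu'.trans ?_
    have : 0 < v := hκ.trans_le hv
    gcongr
  have hmono : MonotoneOn Ψ (Icc κ u) := by
    refine monotoneOn_of_deriv_nonneg (convex_Icc _ _) ?_ ?_ ?_
    · refine ContinuousOn.add ?_ ?_
      · refine hf.comp (ContinuousOn.div continuousOn_const (by fun_prop) ?_) ?_
        · intro v hv
          have : 0 < v := hκ.trans_le hv.1
          positivity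
        · intro v hv
          have h0 : 0 < v := hκ.trans_le hv.1
          refine ⟨by positivity, ?_⟩
          rw [div_le_one (by positivity)]
          linarith [hv.1]
      · refine hf.comp (ContinuousOn.div continuousOn_const (continuousOn_const.add
          (ContinuousOn.div continuousOn_const continuousOn_id ?_)) ?_) ?_
        · intro v hv
          have : 0 < v := hκ.trans_le hv.1
          exact this.ne'
        · intro v hv
          have : 0 < v := hκ.trans_le hv.1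
          positivity
        · intro v hv
          have h0 : 0 < v := hκ.trans_le hv.1
          refine ⟨by positivity, ?_⟩
          rw [div_le_one (by positivity)]
          linarith [hv2 v hv.1 hv.2]
    all_goals
      rw [interior_Icc]
      intro v hv
      have h0 : 0 < v := hκ.trans hv.1
      have hc1 : 1 / (X0 + v) < 1 := by
        rw [div_lt_one (by positivity)]
        linarith [hv.1]
      have hc0 : 0 < 1 / (X0 + v) := by positivity
      have hlt : κ ^ 2 / u < κ ^ 2 / v := by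
        have := hv.2
        have : 0 < κ ^ 2 := by positivity
        gcongr
      have hd1 : 1 / (X0 + κ ^ 2 / v) < 1 := by
        rw [div_lt_one (by positivity)]
        linarith
      have hd0 : 0 < 1 / (X0 + κ ^ 2 / v) := by positivity
      have a1 : HasDerivAt (fun v : ℝ => 1 / (X0 + v)) (-1 / (X0 + v) ^ 2) v := by
        have h1 : HasDerivAt (fun v : ℝ => X0 + v) 1 v := (hasDerivAt_id' v).const_add X0
        have := (hasDerivAt_const v (1 : ℝ)).fun_div h1 (by positivity)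
        refine this.congr_deriv ?_
        ring
      have a2 : HasDerivAt (fun v : ℝ => 1 / (X0 + κ ^ 2 / v))
          ((κ ^ 2 / v ^ 2) / (X0 + κ ^ 2 / v) ^ 2) v := by
        have h0' : HasDerivAt (fun v : ℝ => κ ^ 2 / v) (-(κ ^ 2) / v ^ 2) v := by
          have := (hasDerivAt_const v (κ ^ 2 : ℝ)).fun_div (hasDerivAt_id' v) h0.ne'
          refine this.congr_deriv ?_
          ring
        have h1 : HasDerivAt (fun v : ℝ => X0 + κ ^ 2 / v) (-(κ ^ 2) / v ^ 2) v :=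
          h0'.const_add X0
        have := (hasDerivAt_const v (1 : ℝ)).fun_div h1 (by positivity)
        refine this.congr_deriv ?_
        ring
      have d1 : HasDerivAt (fun v => f (1 / (X0 + v))) (G (1 / (X0 + v)) * (-1 / (X0 + v) ^ 2)) v :=
        (hf' _ hc0 hc1).comp v a1
      have d2 : HasDerivAt (fun v => f (1 / (X0 + κ ^ 2 / v)))
          (G (1 / (X0 + κ ^ 2 / v)) * ((κ ^ 2 / v ^ 2) / (X0 + κ ^ 2 / v) ^ 2)) v :=
        (hf' _ hd0 hd1).comp v a2
      have d3 := d1.fun_add d2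
      first
      | exact d3.differentiableAt.differentiableWithinAt
      | rw [show deriv Ψ v = _ from d3.deriv]
        have hle : 1 / (X0 + v) ≤ 1 / (X0 + κ ^ 2 / v) := by
          have : κ ^ 2 / v ≤ v := by
            rw [div_le_iff₀ h0]
            nlinarith [hv.1]
          gcongr
        have hw := hW _ _ hc0 hle hd1.le
        have e1 : 1 / (X0 + v) * (1 - X0 * (1 / (X0 + v))) = v / (X0 + v) ^ 2 := by
          have : X0 + v ≠ 0 := by positivity
          field_simp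
          ring
        have e2 : 1 / (X0 + κ ^ 2 / v) * (1 - X0 * (1 / (X0 + κ ^ 2 / v)))
            = (κ ^ 2 / v) / (X0 + κ ^ 2 / v) ^ 2 := by
          have : X0 + κ ^ 2 / v ≠ 0 := by positivity
          generalize κ ^ 2 / v = z at this ⊢
          field_simp
          ring
        rw [e1, e2] at hw
        have e3 : G (1 / (X0 + v)) * (-1 / (X0 + v) ^ 2)
            + G (1 / (X0 + κ ^ 2 / v)) * ((κ ^ 2 / v ^ 2) / (X0 + κ ^ 2 / v) ^ 2)
            = (1 / v) * ((κ ^ 2 / v) / (X0 + κ ^ 2 / v) ^ 2 * G (1 / (X0 + κ ^ 2 / v))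
              - v / (X0 + v) ^ 2 * G (1 / (X0 + v))) := by
          generalize G (1 / (X0 + v)) = g1
          generalize G (1 / (X0 + κ ^ 2 / v)) = g2
          have e4 : κ ^ 2 / v ^ 2 = (κ ^ 2 / v) / v := by
            field_simp
          rw [e4]
          generalize κ ^ 2 / v = z
          have : X0 + v ≠ 0 := by positivity
          field_simp
          ring
        rw [e3]
        have : 0 ≤ (κ ^ 2 / v) / (X0 + κ ^ 2 / v) ^ 2 * G (1 / (X0 + κ ^ 2 / v))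
              - v / (X0 + v) ^ 2 * G (1 / (X0 + v)) := sub_nonneg.2 hw
        positivity
  have h := hmono ⟨le_refl κ, hu⟩ ⟨hu, le_refl u⟩ hu
  have e : κ ^ 2 / κ = κ := by field_simp
  simp only [hΨ] at h
  rw [e] at h
  linarith

/-- monotonicity along the path -/
theorem Co.line_mono (b : Co) {X0 κ A A' : ℝ} (hX0 : 0 < X0) (hX1 : X0 < 1) (hκ : 0 < κ)
    (hA : 1 ≤ A) (hA' : 1 ≤ A') (hκ2 : κ ^ 2 = (A - X0) * (A' - X0)) (hk : κ ^ 2 - X0 ^ 2 ≤ 0)
    (hJ : ∀ m p, 1 / (2 * X0) ≤ m → m ≤ 1 → p ≤ m ^ 2 → 2 * m - 1 ≤ p → 0 < p →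
      0 ≤ b.J X0 m p) :
    (X0 + κ) ^ 2 * b.B (1 / (X0 + κ)) (1 / (X0 + κ) ^ 2)
      ≤ A * A' * b.B ((A + A') / (2 * (A * A'))) (1 / (A * A')) := by
  obtain ⟨k, hkdef⟩ : ∃ k, k = κ ^ 2 - X0 ^ 2 := ⟨_, rfl⟩
  rw [← hkdef] at hk
  have hPi1 : X0 * (A + A') + k = A * A' := by
    rw [hkdef, hκ2]; ring
  have hPi0 : X0 * (2 * (X0 + κ)) + k = (X0 + κ) ^ 2 := by
    rw [hkdef]; ring
  have hs0 : 2 * (X0 + κ) ≤ A + A' := by
    by_contra hcon
    push Not at hcon
    have h1 : (A - A') ^ 2 < 0 := by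
      have h2 : (A + A' - 2 * X0) ^ 2 < (2 * κ) ^ 2 := by
        have : 0 < A + A' - 2 * X0 := by linarith
        have h3 : A + A' - 2 * X0 < 2 * κ := by linarith
        nlinarith
      nlinarith
    nlinarith [sq_nonneg (A - A')]
  have hpos : ∀ σ, 2 * (X0 + κ) ≤ σ → 0 < X0 * σ + k := by
    intro σ hσ
    have h1 : 0 < (X0 + κ) ^ 2 := by positivity
    have h2 : X0 * (2 * (X0 + κ)) ≤ X0 * σ := mul_le_mul_of_nonneg_left hσ hX0.le
    linarith
  have hq1 : ∀ σ, σ ≤ A + A' → σ - 1 ≤ X0 * σ + k := by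
    intro σ hσ
    have h1 : (1 - X0) * σ ≤ (1 - X0) * (A + A') :=
      mul_le_mul_of_nonneg_left hσ (by linarith)
    have h2 : 0 ≤ (A - 1) * (A' - 1) := mul_nonneg (by linarith) (by linarith)
    nlinarith
  have hq2 : ∀ σ, 2 * (X0 + κ) ≤ σ → 4 * (X0 * σ + k) ≤ σ ^ 2 := by
    intro σ hσ
    have h1 : (2 * κ) ^ 2 ≤ (σ - 2 * X0) ^ 2 := by
      have : 2 * κ ≤ σ - 2 * X0 := by linarith
      gcongr
    rw [hkdef]
    nlinarith
  have hκ1 : 1 - X0 ≤ κ := by
    by_contra hcon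
    push Not at hcon
    have h1 : κ ^ 2 < (1 - X0) ^ 2 := by
      have : 0 < κ := hκ
      nlinarith
    have h2 : (1 - X0) ^ 2 ≤ (A - X0) * (A' - X0) := by
      rw [sq]
      exact mul_le_mul (by linarith) (by linarith) (by linarith) (by linarith)
    linarith
  have hmono : MonotoneOn (b.E X0 k) (Icc (2 * (X0 + κ)) (A + A')) := by
    refine monotoneOn_of_deriv_nonneg (convex_Icc _ _) ?_ ?_ ?_
    · intro σ hσ
      exact (b.hasDerivAt_E (hpos σ hσ.1)).continuousAt.continuousWithinAt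
    · rw [interior_Icc]
      intro σ hσ
      exact (b.hasDerivAt_E (hpos σ hσ.1.le)).differentiableAt.differentiableWithinAt
    · rw [interior_Icc]
      intro σ hσ
      rw [(b.hasDerivAt_E (hpos σ hσ.1.le)).deriv]
      have hq := hpos σ hσ.1.le
      have hσ2 : 2 ≤ σ := by
        have := hσ.1
        linarith
      have a1 := hq1 σ hσ.2.le
      have a2 := hq2 σ hσ.1.le
      generalize hqdef : X0 * σ + k = q at *
      have hq' : 0 < 1 / q := by positivity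
      refine hJ _ _ ?_ ?_ ?_ ?_ hq'
      · rw [div_le_div_iff₀ (by positivity) (by positivity)]
        nlinarith
      · rw [div_le_one (by positivity)]
        linarith
      · rw [div_pow, div_le_div_iff₀ hq (by positivity)]
        nlinarith
      · have e : 2 * (σ / (2 * q)) - 1 = (σ - q) / q := by
          field_simp
        rw [e]
        gcongr
        linarith
  have hE := hmono ⟨le_refl _, hs0⟩ ⟨hs0, le_refl _⟩ hs0
  have hAA : 0 < A * A' := by positivity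
  rw [b.E_eq (by rw [hPi0]; positivity), b.E_eq (by rw [hPi1]; exact hAA), hPi0, hPi1] at hE
  have e : 2 * (X0 + κ) / (2 * (X0 + κ) ^ 2) = 1 / (X0 + κ) := by
    have : X0 + κ ≠ 0 := by positivity
    field_simp
  rw [e] at hE
  exact hE

/-- reduction to the diagonal, for fixed `r` -/
theorem paths {f G : ℝ → ℝ} {X0 : ℝ} (hX0 : 0 < X0) (hX1 : X0 < 1)
    (hf : ContinuousOn f (Ioc 0 1)) (hf' : ∀ c, 0 < c → c < 1 → HasDerivAt f (G c) c)
    (hG : ∀ x y, 0 < x → x ≤ y → y ≤ 1 → G x ≤ G y)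
    (hW : ∀ x y, 0 < x → x ≤ y → y ≤ 1 → x * (1 - X0 * x) * G x ≤ y * (1 - X0 * y) * G y)
    (b : Co) {S K : ℝ} (hS : 0 ≤ S)
    (h0 : ∀ m, 0 < m → m ≤ 1 / (2 * X0) → m ≤ 1 → 0 ≤ b.r0 m)
    (hJ : ∀ m p, 1 / (2 * X0) ≤ m → m ≤ 1 → p ≤ m ^ 2 → 2 * m - 1 ≤ p → 0 < p → 0 ≤ b.J X0 m p)
    (hdiag : ∀ c, 0 < c → c ≤ 1 → c ^ 2 * (K - 2 * f c) ≤ S * b.B c (c ^ 2)) :
    ∀ c c', 0 < c → c ≤ 1 → 0 < c' → c' ≤ 1 →
      c * c' * (K - f c - f c') ≤ S * b.B ((c + c') / 2) (c * c') := by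
  intro c c' hc hc1 hc' hc1'
  rcases le_total ((c + c') / 2) (1 / (2 * X0)) with hm | hm
  · -- `m` constant
    obtain ⟨m, hmdef⟩ : ∃ m, m = (c + c') / 2 := ⟨_, rfl⟩
    rw [← hmdef] at hm ⊢
    have hm0 : 0 < m := by rw [hmdef]; positivity
    have hm1 : m ≤ 1 := by rw [hmdef]; linarith
    have hr := h0 m hm0 hm hm1
    have hd := hdiag m hm0 hm1
    have ht1 := tangent_lower hf hf' hG m c hm0 hm1 hc hc1
    have ht2 := tangent_lower hf hf' hG m c' hm0 hm1 hc' hc1'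
    have hsum : 2 * f m ≤ f c + f c' := by
      have : G m * (c - m) + G m * (c' - m) = 0 := by
        rw [hmdef]; ring
      linarith
    have hp : c * c' ≤ m ^ 2 := by
      rw [hmdef]
      nlinarith [sq_nonneg (c - c')]
    have hp0 : 0 < c * c' := mul_pos hc hc'
    obtain ⟨r1, hlin⟩ : ∃ r1, ∀ p, b.B m p = b.r0 m + p * r1 := by
      refine ⟨b.B m 1 - b.r0 m, fun p => ?_⟩
      simp only [Co.B, Co.r0]
      ring
    rw [hlin] at hd ⊢
    generalize b.r0 m = r at hr hd ⊢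
    have h1 : c * c' * (K - f c - f c') ≤ c * c' * (K - 2 * f m) :=
      mul_le_mul_of_nonneg_left (by linarith) hp0.le
    refine h1.trans ?_
    have h2 : K - 2 * f m ≤ S * (r / m ^ 2 + r1) := by
      have : S * (r / m ^ 2 + r1) = S * (r + m ^ 2 * r1) / m ^ 2 := by
        field_simp
      rw [this, le_div_iff₀ (by positivity)]
      linarith
    have h3 : c * c' * (K - 2 * f m) ≤ c * c' * (S * (r / m ^ 2 + r1)) :=
      mul_le_mul_of_nonneg_left h2 hp0.le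
    refine h3.trans ?_
    have h4 : c * c' * (r / m ^ 2) ≤ r := by
      rw [mul_div_assoc', div_le_iff₀ (by positivity)]
      nlinarith
    calc c * c' * (S * (r / m ^ 2 + r1))
        = S * (c * c' * (r / m ^ 2) + c * c' * r1) := by ring
      _ ≤ S * (r + c * c' * r1) := by gcongr
  · -- `(1/c - X0) (1/c' - X0)` constant; wlog `c ≤ c'`
    wlog hcc : c ≤ c' generalizing c c' with H
    · have := H c' c hc' hc1' hc hc1 (by rwa [add_comm]) (le_of_not_ge hcc)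
      rw [add_comm c c', mul_comm c c']
      linarith
    obtain ⟨A, hA⟩ : ∃ A, A = 1 / c := ⟨_, rfl⟩
    obtain ⟨A', hA'⟩ : ∃ A', A' = 1 / c' := ⟨_, rfl⟩
    have hXc : 1 ≤ A := by rw [hA, le_div_iff₀ hc]; linarith
    have hXc' : 1 ≤ A' := by rw [hA', le_div_iff₀ hc']; linarith
    have hXX : A' ≤ A := by rw [hA, hA']; gcongr
    have hu0 : 0 < A - X0 := by linarith
    have hu0' : 0 < A' - X0 := by linarith
    obtain ⟨κ, hκdef⟩ : ∃ κ, κ = Real.sqrt ((A - X0) * (A' - X0)) := ⟨_, rfl⟩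
    have hκ2 : κ ^ 2 = (A - X0) * (A' - X0) := by rw [hκdef]; exact Real.sq_sqrt (by positivity)
    have hκ0 : 0 < κ := by rw [hκdef]; exact Real.sqrt_pos.2 (by positivity)
    have hκu : κ ≤ A - X0 := by
      rw [hκdef]
      refine Real.sqrt_le_iff.2 ⟨hu0.le, ?_⟩
      rw [sq]
      gcongr
    have hdiv : κ ^ 2 / (A - X0) = A' - X0 := by
      rw [hκ2, mul_div_assoc, mul_comm, div_mul_cancel₀ _ hu0.ne']
    have hgeo := geo_convex hX0 hX1 hf hf' hW hκ0 hκu (by rw [hdiv]; linarith)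
    rw [hdiv] at hgeo
    have ec : 1 / (X0 + (A - X0)) = c := by
      rw [add_sub_cancel, hA, one_div_one_div]
    have ec' : 1 / (X0 + (A' - X0)) = c' := by
      rw [add_sub_cancel, hA', one_div_one_div]
    rw [ec, ec'] at hgeo
    -- the diagonal point
    have hκ1 : 1 - X0 ≤ κ := by
      rw [hκdef]
      refine Real.le_sqrt_of_sq_le ?_
      rw [sq]
      have : 0 ≤ 1 - X0 := by linarith
      gcongr
    have hq0 : 0 < X0 + κ := by positivity
    have hc0 : 0 < 1 / (X0 + κ) := by positivity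
    have hc01 : 1 / (X0 + κ) ≤ 1 := by
      rw [div_le_one hq0]
      linarith
    have hd := hdiag _ hc0 hc01
    have hAA : 0 < A * A' := by positivity
    have em : (c + c') / 2 = (A + A') / (2 * (A * A')) := by
      rw [hA, hA']
      field_simp
      ring
    have ep : c * c' = 1 / (A * A') := by
      rw [hA, hA']
      field_simp
    have hk : κ ^ 2 - X0 ^ 2 ≤ 0 := by
      rw [em, div_le_div_iff₀ (by positivity) (by positivity)] at hm
      nlinarith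
    have hE := b.line_mono hX0 hX1 hκ0 hXc hXc' hκ2 hk hJ
    rw [em, ep]
    have h1 : K - f c - f c' ≤ K - 2 * f (1 / (X0 + κ)) := by linarith
    have h2 : K - 2 * f (1 / (X0 + κ))
        ≤ S * ((X0 + κ) ^ 2 * b.B (1 / (X0 + κ)) (1 / (X0 + κ) ^ 2)) := by
      have e3 : (1 / (X0 + κ)) ^ 2 = 1 / (X0 + κ) ^ 2 := by rw [div_pow, one_pow]
      rw [e3] at hd
      have hq2 : 0 < (X0 + κ) ^ 2 := by positivity
      have := mul_le_mul_of_nonneg_left hd hq2.le
      have e4 : (X0 + κ) ^ 2 * (1 / (X0 + κ) ^ 2 * (K - 2 * f (1 / (X0 + κ))))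
          = K - 2 * f (1 / (X0 + κ)) := by
        rw [← mul_assoc, mul_one_div_cancel hq2.ne', one_mul]
      rw [e4] at this
      linarith
    have h3 : K - f c - f c' ≤ S * (A * A' * b.B ((A + A') / (2 * (A * A'))) (1 / (A * A'))) :=
      h1.trans (h2.trans (mul_le_mul_of_nonneg_left hE hS))
    have h4 := mul_le_mul_of_nonneg_left h3 (by positivity : 0 ≤ 1 / (A * A'))
    refine h4.trans (le_of_eq ?_)
    generalize b.B ((A + A') / (2 * (A * A'))) (1 / (A * A')) = z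
    field_simp

/-- (N2) from two-variable inequalities: `BL r c c' = S r * (b r).B ((c + c') / 2) (c * c')` is a
lower bound of the kernel, `y = tanh (r / 2) / T`, `G = f'` -/
theorem lower_of_paths {R T d X0 : ℝ} (hR : 0 < R) (hX0 : 1 / 2 ≤ X0) (hX1 : X0 < 1)
    {f G K S : ℝ → ℝ} {b : ℝ → Co} {BT DL : ℝ → ℝ → ℝ → ℝ}
    (hf : ContinuousOn f (Ioc 0 1)) (hf' : ∀ c, 0 < c → c < 1 → HasDerivAt f (G c) c)
    (hG : ∀ x y, 0 < x → x ≤ y → y ≤ 1 → G x ≤ G y)
    (hW : ∀ x y, 0 < x → x ≤ y → y ≤ 1 → x * (1 - X0 * x) * G x ≤ y * (1 - X0 * y) * G y)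
    (hBL : ∀ r c c', 0 < r → 0 < c → c ≤ 1 → 0 < c' → c' ≤ 1 →
      S r * (b r).B ((c + c') / 2) (c * c') ≤ BT r c c')
    (hS : ∀ r, 0 < r → r ≤ 2 * R → 0 ≤ S r)
    (contact : ∀ r, 0 < r → r ≤ 2 * R → d * r = 2 * f (Real.tanh (r / 2) / T) + K r)
    (hy : ∀ r, 0 < r → r ≤ 2 * R → 0 < Real.tanh (r / 2) / T ∧ Real.tanh (r / 2) / T ≤ 1)
    (h0 : ∀ r m, 0 < r → r ≤ 2 * R → 0 < m → m ≤ 1 / (2 * X0) → 0 ≤ (b r).r0 m)
    (hJ1 : ∀ r m, 0 < r → r ≤ 2 * R → 1 / (2 * X0) ≤ m → m ≤ 1 → 0 ≤ (b r).J X0 m (m ^ 2))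
    (hJ2 : ∀ r m, 0 < r → r ≤ 2 * R → 1 / (2 * X0) ≤ m → m ≤ 1 → 0 ≤ (b r).J X0 m (2 * m - 1))
    (hdiag : ∀ r c, 0 < r → r ≤ 2 * R → 0 < c → c ≤ 1 →
      c ^ 2 * (K r - 2 * (G (Real.tanh (r / 2) / T) * (c - Real.tanh (r / 2) / T)))
        ≤ S r * (b r).B c (c ^ 2))
    (hcont : ∀ c c', 0 < c → c ≤ 1 → 0 < c' → c' ≤ 1 →
      ContinuousOn (fun r => S r * (b r).B ((c + c') / 2) (c * c')) (Ici (2 * R)))
    (hder : ∀ r c c', 2 * R < r → 0 < c → c ≤ 1 → 0 < c' → c' ≤ 1 →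
      HasDerivAt (fun r => S r * (b r).B ((c + c') / 2) (c * c')) (DL r c c') r)
    (T2 : ∀ r c c', 2 * R < r → 0 < c → c ≤ 1 → 0 < c' → c' ≤ 1 → c * c' * d ≤ DL r c c') :
    ∀ r c c', 0 < r → 0 < c → c ≤ 1 → 0 < c' → c' ≤ 1 →
      c * c' * (d * r - f c - f c') ≤ BT r c c' := by
  have hX : 0 < X0 := by linarith
  have hm1 : 1 / (2 * X0) ≤ 1 := by
    rw [div_le_one (by positivity)]
    linarith
  refine lower_of_reduction (BL := fun r c c' => S r * (b r).B ((c + c') / 2) (c * c'))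
    (P := fun y c => f c - f y) hR hBL contact hy (fun y c _ _ _ _ => le_refl _) ?_ hcont hder T2
  intro r c c' hr hr2 hc hc1 hc' hc1'
  have hyr := hy r hr hr2
  have key := paths (K := K r + 2 * f (Real.tanh (r / 2) / T)) hX hX1 hf hf' hG hW (b r)
    (hS r hr hr2) (fun m hm hm' _ => h0 r m hr hr2 hm hm')
    (fun m p hm hm' hp hp' _ => (b r).J_nonneg (hJ1 r m hr hr2 hm hm') (hJ2 r m hr hr2 hm hm') hp
      hp') ?_ c c' hc hc1 hc' hc1'
  · refine le_trans (le_of_eq ?_) key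
    ring
  · intro e he he1
    refine le_trans ?_ (hdiag r e hr hr2 he he1)
    have ht := tangent_lower hf hf' hG _ e hyr.1 hyr.2 he he1
    refine mul_le_mul_of_nonneg_left ?_ (sq_nonneg e)
    linarith

end Vale.Agent.Lib.P219.Lin
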