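import Mathlib.Algebra.Order.Star.Real
import Mathlib.Analysis.Calculus.Deriv.Inv
import Mathlib.Analysis.Calculus.Deriv.MeanValue
import Mathlib.Analysis.Calculus.Deriv.Pow
import Mathlib.Analysis.InnerProductSpace.Basic
import Mathlib.Topology.Algebra.Module.ModuleTopology

/-!
# P219, curvature `-1`: reduction of the sharp lower bound (N2) to two-variable inequalities

`f' c = φ c / c²`, `φ` convex as a function of `c²`.
-/

namespace Vale.Agent.Lib.P219.Lin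

open Set Filter Topology

section Breg

variable {f φ : ℝ → ℝ} {y : ℝ}

theorem hasDerivAt_breg (hf' : ∀ c, 0 < c → c < 1 → HasDerivAt f (φ c / c ^ 2) c) (κ ν : ℝ)
    {c : ℝ} (hc : 0 < c) (hc1 : c < 1) :
    HasDerivAt (fun c => f c - f y - φ y * (1 / y - 1 / c) - κ * ((y - c) ^ 2 / c)
      - ν * (y / c - 1))
      ((φ c - φ y - κ * (c ^ 2 - y ^ 2) + ν * y) / c ^ 2) c := by
  have h1 : HasDerivAt (fun c : ℝ => 1 / c) (-1 / c ^ 2) c := by
    have := hasDerivAt_inv hc.ne'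
    simpa [neg_div, one_div] using this
  have h2 : HasDerivAt (fun c : ℝ => φ y * (1 / y - 1 / c)) (φ y * (-(-1 / c ^ 2))) c :=
    (h1.const_sub (1 / y)).const_mul (φ y)
  have h3 : HasDerivAt (fun c : ℝ => (y - c) ^ 2 / c) ((2 * (y - c) ^ (2 - 1) * (-1) * c
      - (y - c) ^ 2 * 1) / c ^ 2) c := by
    have e1 : HasDerivAt (fun c : ℝ => y - c) (-1) c := (hasDerivAt_id c).const_sub y
    exact (e1.pow 2).div (hasDerivAt_id c) hc.ne'
  have h4 : HasDerivAt (fun c : ℝ => y / c - 1) (y * (-1 / c ^ 2)) c := by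
    have := (h1.const_mul y).sub_const 1
    refine this.congr_of_eventuallyEq (Eventually.of_forall fun t => ?_)
    simp [div_eq_mul_inv]
  have h5 := ((((hf' c hc hc1).sub_const (f y)).sub h2).sub (h3.const_mul κ)).sub (h4.const_mul ν)
  refine h5.congr_deriv ?_
  have := hc.ne'
  field_simp
  ring

theorem continuousOn_breg (hf : ContinuousOn f (Ioc 0 1)) (κ ν : ℝ) :
    ContinuousOn (fun c => f c - f y - φ y * (1 / y - 1 / c) - κ * ((y - c) ^ 2 / c)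
      - ν * (y / c - 1)) (Ioc 0 1) := by
  have h0 : ∀ c ∈ Ioc (0 : ℝ) 1, c ≠ 0 := fun c hc => hc.1.ne'
  refine ((hf.sub continuousOn_const).sub ?_).sub ?_ |>.sub ?_
  · exact continuousOn_const.mul (continuousOn_const.sub (continuousOn_const.div continuousOn_id h0))
  · exact continuousOn_const.mul (ContinuousOn.div (by fun_prop) continuousOn_id h0)
  · exact continuousOn_const.mul ((continuousOn_const.div continuousOn_id h0).sub continuousOn_const)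

theorem breg_right (hf : ContinuousOn f (Ioc 0 1))
    (hf' : ∀ c, 0 < c → c < 1 → HasDerivAt f (φ c / c ^ 2) c) (hy0 : 0 < y) {κ : ℝ}
    (h : ∀ t, y ≤ t → t ≤ 1 → κ * (t ^ 2 - y ^ 2) ≤ φ t - φ y) {c : ℝ} (hc : y ≤ c) (hc1 : c ≤ 1) :
    κ * ((y - c) ^ 2 / c) ≤ f c - f y - φ y * (1 / y - 1 / c) := by
  set H : ℝ → ℝ := fun c => f c - f y - φ y * (1 / y - 1 / c) - κ * ((y - c) ^ 2 / c)
      - 0 * (y / c - 1) with hH
  have hmono : MonotoneOn H (Icc y 1) := by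
    refine monotoneOn_of_deriv_nonneg (convex_Icc _ _) ?_ ?_ ?_
    · exact (continuousOn_breg hf κ 0).mono fun t ht => ⟨hy0.trans_le ht.1, ht.2⟩
    · rw [interior_Icc]
      intro t ht
      exact (hasDerivAt_breg hf' κ 0 (hy0.trans ht.1) ht.2).differentiableAt.differentiableWithinAt
    · rw [interior_Icc]
      intro t ht
      rw [(hasDerivAt_breg hf' κ 0 (hy0.trans ht.1) ht.2).deriv]
      have := h t ht.1.le ht.2.le
      exact div_nonneg (by linarith) (sq_nonneg _)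
  have h1 := hmono ⟨le_rfl, hc.trans hc1⟩ ⟨hc, hc1⟩ hc
  have h2 : H y = 0 := by simp [hH]
  rw [h2] at h1
  simp only [hH] at h1
  linarith

theorem breg_left (hf : ContinuousOn f (Ioc 0 1))
    (hf' : ∀ c, 0 < c → c < 1 → HasDerivAt f (φ c / c ^ 2) c) (hy1 : y ≤ 1) {κ a : ℝ}
    (ha : 0 < a)
    (h : ∀ t, a ≤ t → t ≤ y → κ * (y ^ 2 - t ^ 2) ≤ φ y - φ t) {c : ℝ} (hc : a ≤ c) (hc1 : c ≤ y) :
    κ * ((y - c) ^ 2 / c) ≤ f c - f y - φ y * (1 / y - 1 / c) := by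
  set H : ℝ → ℝ := fun c => f c - f y - φ y * (1 / y - 1 / c) - κ * ((y - c) ^ 2 / c)
      - 0 * (y / c - 1) with hH
  have hanti : AntitoneOn H (Icc a y) := by
    refine antitoneOn_of_deriv_nonpos (convex_Icc _ _) ?_ ?_ ?_
    · exact (continuousOn_breg hf κ 0).mono fun t ht => ⟨ha.trans_le ht.1, ht.2.trans hy1⟩
    · rw [interior_Icc]
      intro t ht
      exact (hasDerivAt_breg hf' κ 0 (ha.trans ht.1)
        (ht.2.trans_le hy1)).differentiableAt.differentiableWithinAt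
    · rw [interior_Icc]
      intro t ht
      rw [(hasDerivAt_breg hf' κ 0 (ha.trans ht.1) (ht.2.trans_le hy1)).deriv]
      have := h t ht.1.le ht.2.le
      exact div_nonpos_of_nonpos_of_nonneg (by linarith) (sq_nonneg _)
  have h1 := hanti ⟨hc, hc1⟩ ⟨hc.trans hc1, le_rfl⟩ hc1
  have h2 : H y = 0 := by simp [hH]
  rw [h2] at h1
  simp only [hH] at h1
  linarith

/-- for `c` below `a` the expression decreases -/
theorem breg_low (hf : ContinuousOn f (Ioc 0 1))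
    (hf' : ∀ c, 0 < c → c < 1 → HasDerivAt f (φ c / c ^ 2) c) {κ ν a : ℝ} (ha1 : a ≤ 1)
    (h : ∀ t, 0 < t → t ≤ a → φ t - φ y - κ * (t ^ 2 - y ^ 2) + ν * y ≤ 0)
    {c : ℝ} (hc : 0 < c) (hca : c ≤ a) :
    f a - f y - φ y * (1 / y - 1 / a) - κ * ((y - a) ^ 2 / a) - ν * (y / a - 1)
      ≤ f c - f y - φ y * (1 / y - 1 / c) - κ * ((y - c) ^ 2 / c) - ν * (y / c - 1) := by
  have hanti : AntitoneOn (fun c => f c - f y - φ y * (1 / y - 1 / c) - κ * ((y - c) ^ 2 / c)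
      - ν * (y / c - 1)) (Icc c a) := by
    refine antitoneOn_of_deriv_nonpos (convex_Icc _ _) ?_ ?_ ?_
    · exact (continuousOn_breg hf κ ν).mono fun t ht => ⟨hc.trans_le ht.1, ht.2.trans ha1⟩
    · rw [interior_Icc]
      intro t ht
      exact (hasDerivAt_breg hf' κ ν (hc.trans ht.1)
        (ht.2.trans_le ha1)).differentiableAt.differentiableWithinAt
    · rw [interior_Icc]
      intro t ht
      rw [(hasDerivAt_breg hf' κ ν (hc.trans ht.1) (ht.2.trans_le ha1)).deriv]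
      exact div_nonpos_of_nonpos_of_nonneg (h t (hc.trans ht.1) ht.2.le) (sq_nonneg _)
  exact hanti ⟨le_rfl, hca⟩ ⟨hca, le_rfl⟩ hca

end Breg

/-! ### elementary inequalities -/

/-- `η` -/
noncomputable def etaY (y : ℝ) : ℝ := (3 + y ^ 2) ^ 2 / (3 * (1 + y) * (3 + 5 * y ^ 2))

theorem etaY_pos {y : ℝ} (hy : 0 ≤ y) : 0 < etaY y := by
  unfold etaY; positivity

theorem one_le_three_etaY {y : ℝ} (hy : 0 ≤ y) (hy1 : y ≤ 1) : 1 ≤ 3 * etaY y := by
  unfold etaY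
  rw [mul_div_assoc', le_div_iff₀ (by positivity)]
  have h : 0 ≤ (1 - y) * (6 + 3 * y + 4 * y ^ 2 - y ^ 3) :=
    mul_nonneg (by linarith) (by nlinarith [mul_nonneg hy hy, mul_nonneg (mul_nonneg hy hy) (sub_nonneg.2 hy1)])
  nlinarith

theorem etaY_mul {y : ℝ} (hy : 0 ≤ y) :
    etaY y * (1 - (4 * y ^ 2 / (3 + y ^ 2)) ^ 2) = 1 - y := by
  unfold etaY
  have h1 : (3 : ℝ) + y ^ 2 ≠ 0 := by positivity
  have h2 : (1 : ℝ) + y ≠ 0 := by positivity
  have h3 : (3 : ℝ) + 5 * y ^ 2 ≠ 0 := by positivity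
  field_simp
  ring

/-- value of the discriminant at `u = u_s` -/
theorem disc_us {y : ℝ} (hy : 0 ≤ y) (hy1 : y ≤ 1) :
    (1 - etaY y * (1 - 4 * y ^ 2 / (3 + y ^ 2))) ^ 2 ≤ 3 * etaY y * (4 * y ^ 2 / (3 + y ^ 2)) := by
  have h1 : (0 : ℝ) < 3 + y ^ 2 := by positivity
  have h2 : (0 : ℝ) < 1 + y := by positivity
  have h3 : (0 : ℝ) < 3 + 5 * y ^ 2 := by positivity
  have e1 : 1 - etaY y * (1 - 4 * y ^ 2 / (3 + y ^ 2)) = y * (1 + y) * (3 + y) / (3 + 5 * y ^ 2) := by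
    unfold etaY
    field_simp
    ring
  have e2 : 3 * etaY y * (4 * y ^ 2 / (3 + y ^ 2))
      = 4 * y ^ 2 * (3 + y ^ 2) / ((1 + y) * (3 + 5 * y ^ 2)) := by
    unfold etaY
    field_simp
  rw [e1, e2, div_pow, div_le_div_iff₀ (by positivity) (by positivity)]
  have h4 : 0 ≤ (1 - y) * (27 - 6 * y + 20 * y ^ 2 - 10 * y ^ 3 + y ^ 4) :=
    mul_nonneg (by linarith) (by nlinarith [mul_nonneg hy hy, mul_nonneg (mul_nonneg hy hy) (sub_nonneg.2 hy1), sq_nonneg (y ^ 2)])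
  have h5 : 0 ≤ y ^ 2 * (3 + 5 * y ^ 2) * ((1 - y) * (27 - 6 * y + 20 * y ^ 2 - 10 * y ^ 3 + y ^ 4)) :=
    mul_nonneg (by positivity) h4
  have e3 : 4 * y ^ 2 * (3 + y ^ 2) * (3 + 5 * y ^ 2) ^ 2
      - (y * (1 + y) * (3 + y)) ^ 2 * ((1 + y) * (3 + 5 * y ^ 2))
      = y ^ 2 * (3 + 5 * y ^ 2) * ((1 - y) * (27 - 6 * y + 20 * y ^ 2 - 10 * y ^ 3 + y ^ 4)) := by
    ring
  linarith

theorem disc_le {y u : ℝ} (hy : 0 ≤ y) (hy1 : y ≤ 1) (hu : 4 * y ^ 2 / (3 + y ^ 2) ≤ u)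
    (hu1 : u ≤ 1) : (1 - etaY y * (1 - u)) ^ 2 ≤ 3 * etaY y * u := by
  have h1 := disc_us hy hy1
  have h2 := one_le_three_etaY hy hy1
  have h3 := etaY_pos hy
  set us := 4 * y ^ 2 / (3 + y ^ 2) with hus
  set η := etaY y with hη
  rcases eq_or_lt_of_le (hu.trans hu1) with h | h
  · have : u = us := le_antisymm (hu1.trans h.ge) hu
    rw [this]; exact h1
  · -- convexity in `u`
    have e : (1 - us) * (3 * η * u - (1 - η * (1 - u)) ^ 2)
        = (1 - u) * (3 * η * us - (1 - η * (1 - us)) ^ 2) + (u - us) * (3 * η - 1)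
          + η ^ 2 * ((1 - u) * (u - us) * (1 - us)) := by ring
    have h4 : 0 ≤ (1 - us) * (3 * η * u - (1 - η * (1 - u)) ^ 2) := by
      rw [e]
      have a1 := mul_nonneg (sub_nonneg.2 hu1) (sub_nonneg.2 h1)
      have a2 := mul_nonneg (sub_nonneg.2 hu) (sub_nonneg.2 h2)
      have a3 := mul_nonneg (sq_nonneg η) (mul_nonneg (mul_nonneg (sub_nonneg.2 hu1) (sub_nonneg.2 hu))
        (sub_nonneg.2 h.le))
      linarith
    have := nonneg_of_mul_nonneg_right h4 (sub_pos.2 h)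
    linarith

theorem opp_ineq {y u u' : ℝ} (hy : 0 ≤ y) (hy1 : y ≤ 1) (hu0 : 0 < u)
    (hu : 4 * y ^ 2 / (3 + y ^ 2) ≤ u) (hu1 : u ≤ 1) :
    (1 - u) * (u' - 1) ≤ etaY y * u' * (1 - u) ^ 2 + 3 / 4 * u * (u' - 1) ^ 2 := by
  have h1 := disc_le hy hy1 hu hu1
  have h3 := etaY_pos hy
  set η := etaY y with hη
  have h5 : 0 ≤ 3 * u * (η * u' * (1 - u) ^ 2 + 3 / 4 * u * (u' - 1) ^ 2 - (1 - u) * (u' - 1)) := by
    have e : 3 * u * (η * u' * (1 - u) ^ 2 + 3 / 4 * u * (u' - 1) ^ 2 - (1 - u) * (u' - 1))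
        = (3 / 2 * u * (u' - 1) - (1 - u) * (1 - η * (1 - u))) ^ 2
          + (1 - u) ^ 2 * (3 * η * u - (1 - η * (1 - u)) ^ 2) := by ring
    rw [e]
    exact add_nonneg (sq_nonneg _) (mul_nonneg (sq_nonneg _) (by linarith))
  have := nonneg_of_mul_nonneg_right h5 (by positivity)
  linarith

/-! ### the main estimate -/

/-- hypotheses on `f` and `φ = c² f'` at `y` -/
structure TwoH (τ y P Fp S : ℝ) (f φ : ℝ → ℝ) : Prop where
  y0 : 0 < y
  y1 : y ≤ 1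
  S0 : 0 < S
  τ0 : 0 ≤ τ
  τ1 : τ < 1
  hf : ContinuousOn f (Ioc 0 1)
  hf' : ∀ c, 0 < c → c < 1 → HasDerivAt f (φ c / c ^ 2) c
  hφm : ∀ a b, 0 < a → a ≤ b → b ≤ 1 → φ a ≤ φ b
  hφt : ∀ c, y ≤ c → c ≤ 1 → φ y + S * Fp / y ^ 3 * (c ^ 2 - y ^ 2) ≤ φ c
  hφc : ∀ a c, 0 < a → a ≤ c → c ≤ y →
      (φ y - φ a) * (y ^ 2 - c ^ 2) ≤ (φ y - φ c) * (y ^ 2 - a ^ 2)
  hφy : φ y = S * P / y
  hP : 0 ≤ P
  hφs : φ (y ^ 3 / (3 / 4 + y ^ 2 / 4)) * ((3 / 4 + y ^ 2 / 4) ^ 2 - τ * y ^ 6)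
      ≤ φ y * (y ^ 4 * (1 - τ * y ^ 2))

/-- normalised Bregman distance -/
noncomputable def Bg (y P S : ℝ) (f : ℝ → ℝ) (t : ℝ) : ℝ :=
  y ^ 2 / S * (f t - f y) - P * (1 - y / t)

variable {τ y P Fp S : ℝ} {f φ : ℝ → ℝ}

theorem TwoH.Bg_eq (h : TwoH τ y P Fp S f φ) {t : ℝ} (ht : 0 < t) :
    Bg y P S f t = y ^ 2 / S * (f t - f y - φ y * (1 / y - 1 / t)) := by
  have h1 := h.y0
  have h2 := h.S0
  rw [Bg, h.hφy]
  field_simp

theorem TwoH.Bg_nonneg (h : TwoH τ y P Fp S f φ) {t : ℝ} (ht : 0 < t) (ht1 : t ≤ 1) :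
    0 ≤ Bg y P S f t := by
  have h1 := h.y0
  have h2 := h.S0
  rw [h.Bg_eq ht]
  refine mul_nonneg (by positivity) ?_
  rcases le_total y t with h3 | h3
  · have := breg_right (κ := 0) h.hf h.hf' h1 (fun s hs hs1 => by
      have := h.hφm y s h1 hs hs1
      linarith) h3 ht1
    linarith
  · have := breg_left (κ := 0) (a := t) h.hf h.hf' h.y1 ht (fun s hs _ => by
      have := h.hφm s y (ht.trans_le hs) (by assumption) h.y1
      linarith) le_rfl h3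
    linarith

/-- `D² - τ y⁶ > 0` -/
theorem TwoH.E_pos (h : TwoH τ y P Fp S f φ) (hlt : y < 1) :
    0 < (3 / 4 + y ^ 2 / 4) ^ 2 - τ * y ^ 6 := by
  have h1 := h.y0
  have hy2 : y ^ 2 < 1 := by nlinarith
  have hDy : y ^ 2 < 3 / 4 + y ^ 2 / 4 := by linarith
  have hy6 : y ^ 6 ≤ y ^ 4 := by
    have : y ^ 6 = y ^ 4 * y ^ 2 := by ring
    rw [this]
    exact mul_le_of_le_one_right (by positivity) hy2.le
  have h2 : y ^ 4 < (3 / 4 + y ^ 2 / 4) ^ 2 := by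
    have : y ^ 4 = (y ^ 2) ^ 2 := by ring
    rw [this]
    exact pow_lt_pow_left₀ hDy (by positivity) two_ne_zero
  have h3 : τ * y ^ 6 ≤ 1 * y ^ 6 := mul_le_mul_of_nonneg_right h.τ1.le (by positivity)
  linarith

/-- `c₁ < y` -/
theorem aY_lt {y : ℝ} (h0 : 0 < y) (hlt : y < 1) : y ^ 3 / (3 / 4 + y ^ 2 / 4) < y := by
  rw [div_lt_iff₀ (by positivity)]
  have h1 : y ^ 2 < 1 := by nlinarith
  have : y ^ 3 = y * y ^ 2 := by ring
  rw [this]
  exact mul_lt_mul_of_pos_left (by linarith) h0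

/-- `Q` -/
noncomputable def QY (τ y P : ℝ) : ℝ :=
  P * (3 / 4 + y ^ 2 / 4) ^ 2 / ((3 / 4 + y ^ 2 / 4) ^ 2 - τ * y ^ 6)

theorem TwoH.chord0 (h : TwoH τ y P Fp S f φ) (hlt : y < 1) :
    S * QY τ y P / y ^ 3 * (y ^ 2 - (y ^ 3 / (3 / 4 + y ^ 2 / 4)) ^ 2)
      ≤ φ y - φ (y ^ 3 / (3 / 4 + y ^ 2 / 4)) := by
  have hE0 := h.E_pos hlt
  have h1 := h.y0
  have hs := h.hφs
  have hy := h.hφy
  set D := 3 / 4 + y ^ 2 / 4 with hD
  have hD0 : 0 < D := by positivity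
  have e1 : S * QY τ y P / y ^ 3 * (y ^ 2 - (y ^ 3 / D) ^ 2)
      = φ y * (D ^ 2 - y ^ 4) / (D ^ 2 - τ * y ^ 6) := by
    rw [QY, ← hD, hy]
    field_simp
  rw [e1, div_le_iff₀ hE0]
  nlinarith

theorem TwoH.chord (h : TwoH τ y P Fp S f φ) (hlt : y < 1) {t : ℝ}
    (ht1 : y ^ 3 / (3 / 4 + y ^ 2 / 4) ≤ t) (ht2 : t ≤ y) :
    S * QY τ y P / y ^ 3 * (y ^ 2 - t ^ 2) ≤ φ y - φ t := by
  have h0 := h.y0
  have hay := aY_lt h.y0 hlt
  have ha0 : 0 < y ^ 3 / (3 / 4 + y ^ 2 / 4) := by positivity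
  have h1 := h.hφc _ t ha0 ht1 ht2
  have h2 := h.chord0 hlt
  set a := y ^ 3 / (3 / 4 + y ^ 2 / 4) with ha
  have ha2 : 0 < y ^ 2 - a ^ 2 := by nlinarith
  have ht0 : 0 < t := ha0.trans_le ht1
  have h3 : 0 ≤ y ^ 2 - t ^ 2 := by nlinarith
  have h4 := mul_le_mul_of_nonneg_left h2 h3
  have h5 : (y ^ 2 - a ^ 2) * (S * QY τ y P / y ^ 3 * (y ^ 2 - t ^ 2))
      ≤ (y ^ 2 - a ^ 2) * (φ y - φ t) := by
    linarith
  exact le_of_mul_le_mul_left h5 ha2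

theorem TwoH.right (h : TwoH τ y P Fp S f φ) {t : ℝ} (ht : y ≤ t) (ht1 : t ≤ 1) :
    Fp * ((1 - t / y) ^ 2 * (y / t)) ≤ Bg y P S f t := by
  have h0 := h.y0
  have hS := h.S0
  have ht0 : 0 < t := h0.trans_le ht
  have h1 := breg_right (κ := S * Fp / y ^ 3) h.hf h.hf' h0 (fun s hs hs1 => by
    have := h.hφt s hs hs1
    linarith) ht ht1
  rw [h.Bg_eq ht0]
  have h3 := mul_le_mul_of_nonneg_left h1 (by positivity : 0 ≤ y ^ 2 / S)
  have e : y ^ 2 / S * (S * Fp / y ^ 3 * ((y - t) ^ 2 / t))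
      = Fp * ((1 - t / y) ^ 2 * (y / t)) := by
    field_simp
  linarith

theorem TwoH.left (h : TwoH τ y P Fp S f φ) (hlt : y < 1) {t : ℝ}
    (ht1 : y ^ 3 / (3 / 4 + y ^ 2 / 4) ≤ t) (ht2 : t ≤ y) :
    QY τ y P * ((1 - t / y) ^ 2 * (y / t)) ≤ Bg y P S f t := by
  have h0 := h.y0
  have hS := h.S0
  have ha0 : 0 < y ^ 3 / (3 / 4 + y ^ 2 / 4) := by positivity
  have ht0 : 0 < t := ha0.trans_le ht1
  have h1 := breg_left (κ := S * QY τ y P / y ^ 3) h.hf h.hf' h.y1 ha0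
    (fun s hs hs1 => h.chord hlt hs hs1) ht1 ht2
  rw [h.Bg_eq ht0]
  have h3 := mul_le_mul_of_nonneg_left h1 (by positivity : 0 ≤ y ^ 2 / S)
  have e : y ^ 2 / S * (S * QY τ y P / y ^ 3 * ((y - t) ^ 2 / t))
      = QY τ y P * ((1 - t / y) ^ 2 * (y / t)) := by
    field_simp
  linarith

theorem TwoH.low (h : TwoH τ y P Fp S f φ) (hlt : y < 1) {Rr N t : ℝ} (hRr : 0 ≤ Rr)
    (hN : N ≤ (QY τ y P + Rr / 2) * (1 - (y ^ 3 / (3 / 4 + y ^ 2 / 4) / y) ^ 2))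
    (ht : 0 < t) (hta : t ≤ y ^ 3 / (3 / 4 + y ^ 2 / 4)) :
    Bg y P S f (y ^ 3 / (3 / 4 + y ^ 2 / 4))
      + Rr / 2 * ((1 - y ^ 3 / (3 / 4 + y ^ 2 / 4) / y) ^ 2 * (y / (y ^ 3 / (3 / 4 + y ^ 2 / 4))))
      - N * (y / (y ^ 3 / (3 / 4 + y ^ 2 / 4)) - 1)
      ≤ Bg y P S f t + Rr / 2 * ((1 - t / y) ^ 2 * (y / t)) - N * (y / t - 1) := by
  have h0 := h.y0
  have hS := h.S0
  have hay := aY_lt h.y0 hlt
  have ha0 : 0 < y ^ 3 / (3 / 4 + y ^ 2 / 4) := by positivity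
  have h2 := h.chord hlt le_rfl hay.le
  set a := y ^ 3 / (3 / 4 + y ^ 2 / 4) with ha
  have h1 := breg_low (κ := -(S * Rr / (2 * y ^ 3))) (ν := S * N / y ^ 2) (y := y) h.hf h.hf'
    (hay.le.trans h.y1) (fun s hs0 hsa => ?_) ht hta
  · rw [h.Bg_eq ha0, h.Bg_eq ht]
    have h3 := mul_le_mul_of_nonneg_left h1 (by positivity : 0 ≤ y ^ 2 / S)
    have e : ∀ s, 0 < s → y ^ 2 / S * (f s - f y - φ y * (1 / y - 1 / s)
        - -(S * Rr / (2 * y ^ 3)) * ((y - s) ^ 2 / s) - S * N / y ^ 2 * (y / s - 1))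
        = y ^ 2 / S * (f s - f y - φ y * (1 / y - 1 / s))
          + Rr / 2 * ((1 - s / y) ^ 2 * (y / s)) - N * (y / s - 1) := by
      intro s hs
      have e1 : y ^ 2 / S * (S * Rr / (2 * y ^ 3) * ((y - s) ^ 2 / s))
          = Rr / 2 * ((1 - s / y) ^ 2 * (y / s)) := by
        field_simp
      have e2 : y ^ 2 / S * (S * N / y ^ 2 * (y / s - 1)) = N * (y / s - 1) := by
        field_simp
      rw [← e1, ← e2]
      ring
    rw [e a ha0, e t ht] at h3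
    exact h3
  · have h3 := h.hφm s a hs0 hsa (hay.le.trans h.y1)
    have h4 : S * Rr / (2 * y ^ 3) * (y ^ 2 - a ^ 2) ≤ S * Rr / (2 * y ^ 3) * (y ^ 2 - s ^ 2) :=
      mul_le_mul_of_nonneg_left (by nlinarith) (by positivity)
    have h5 : S * N / y ^ 2 * y ≤ S * QY τ y P / y ^ 3 * (y ^ 2 - a ^ 2)
        + S * Rr / (2 * y ^ 3) * (y ^ 2 - a ^ 2) := by
      have h6 := mul_le_mul_of_nonneg_left hN (by positivity : 0 ≤ S / y)
      have e1 : S / y * N = S * N / y ^ 2 * y := by field_simp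
      have e2 : S / y * ((QY τ y P + Rr / 2) * (1 - (a / y) ^ 2))
          = S * QY τ y P / y ^ 3 * (y ^ 2 - a ^ 2) + S * Rr / (2 * y ^ 3) * (y ^ 2 - a ^ 2) := by
        field_simp
      rw [e1, e2] at h6
      exact h6
    have e3 : φ s - φ y - -(S * Rr / (2 * y ^ 3)) * (s ^ 2 - y ^ 2) + S * N / y ^ 2 * y
        = S * N / y ^ 2 * y - (φ y - φ s) - S * Rr / (2 * y ^ 3) * (y ^ 2 - s ^ 2) := by
      ring
    rw [e3]
    linarith

/-- the case `c < y < c'` -/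
theorem TwoH.opp (h : TwoH τ y P Fp S f φ) {Rr th : ℝ} (hRr : 0 ≤ Rr) (hth0 : 0 ≤ th)
    (hth4 : 3 / 4 * th ≤ Fp + Rr / 2)
    (hth5 : th ≤ 3 / 4 * (1 + y) * (3 / 4 + y ^ 2 / 4 + y ^ 2)
      * (P / ((3 / 4 + y ^ 2 / 4) ^ 2 - τ * y ^ 6) + Rr / (2 * (3 / 4 + y ^ 2 / 4) ^ 2)))
    {c c' : ℝ} (hc : 0 < c) (hcy : c ≤ y) (hyc' : y < c') (hc1' : c' ≤ 1) :
    0 ≤ Bg y P S f c + Rr / 2 * ((1 - c / y) ^ 2 * (y / c))
      - th * (1 - y / c') * (y / c - 1)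
      + (Bg y P S f c' + Rr / 2 * ((1 - c' / y) ^ 2 * (y / c'))) := by
  have hy0 := h.y0
  have hlt : y < 1 := hyc'.trans_le hc1'
  have hE0 := h.E_pos hlt
  have hay := aY_lt h.y0 hlt
  have hc' : 0 < c' := hy0.trans hyc'
  have hQR : etaY y * th ≤ QY τ y P + Rr / 2 := by
    have e1 : etaY y = (3 / 4 + y ^ 2 / 4) ^ 2
        / (3 / 4 * (1 + y) * ((3 / 4 + y ^ 2 / 4) + y ^ 2)) := by
      unfold etaY
      field_simp
      ring
    have h1 := mul_le_mul_of_nonneg_left hth5 (etaY_pos hy0.le).le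
    have e2 : etaY y * (3 / 4 * (1 + y) * ((3 / 4 + y ^ 2 / 4) + y ^ 2)
        * (P / ((3 / 4 + y ^ 2 / 4) ^ 2 - τ * y ^ 6) + Rr / (2 * (3 / 4 + y ^ 2 / 4) ^ 2)))
        = QY τ y P + Rr / 2 := by
      rw [e1, QY]
      set D := 3 / 4 + y ^ 2 / 4 with hD
      have hD0 : 0 < D := by positivity
      field_simp
    linarith
  have hR : 3 / 4 * th * ((1 - c' / y) ^ 2 * (y / c'))
      ≤ Bg y P S f c' + Rr / 2 * ((1 - c' / y) ^ 2 * (y / c')) := by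
    have h2 := h.right hyc'.le hc1'
    have h3 := mul_le_mul_of_nonneg_right hth4 (by positivity : 0 ≤ (1 - c' / y) ^ 2 * (y / c'))
    linarith
  set a := y ^ 3 / (3 / 4 + y ^ 2 / 4) with ha
  have ha0 : 0 < a := by positivity
  have hus : a / y = 4 * y ^ 2 / (3 + y ^ 2) := by
    rw [ha]
    field_simp
  have hξ0 : 0 ≤ 1 - y / c' := by
    rw [sub_nonneg, div_le_one hc']; exact hyc'.le
  have hξ1 : 1 - y / c' ≤ 1 - y := by
    have h1 : y / 1 ≤ y / c' := div_le_div_of_nonneg_left hy0.le hc' hc1'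
    linarith
  have hpt : ∀ t, a ≤ t → t ≤ y → 0 ≤ Bg y P S f t + Rr / 2 * ((1 - t / y) ^ 2 * (y / t))
      - th * (1 - y / c') * (y / t - 1)
      + (Bg y P S f c' + Rr / 2 * ((1 - c' / y) ^ 2 * (y / c'))) := by
    intro t hta hty
    have ht0 : 0 < t := ha0.trans_le hta
    have h1 := opp_ineq (y := y) (u := t / y) (u' := c' / y) hy0.le h.y1 (by positivity)
      (by rw [← hus]; exact div_le_div_of_nonneg_right hta hy0.le) ((div_le_one hy0).2 hty)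
    have h2 : 0 ≤ th * (y / t) * (y / c') * (etaY y * (c' / y) * (1 - t / y) ^ 2
        + 3 / 4 * (t / y) * (c' / y - 1) ^ 2 - (1 - t / y) * (c' / y - 1)) :=
      mul_nonneg (by positivity) (by linarith)
    have e1 : th * (y / t) * (y / c') * (etaY y * (c' / y) * (1 - t / y) ^ 2
        + 3 / 4 * (t / y) * (c' / y - 1) ^ 2 - (1 - t / y) * (c' / y - 1))
        = etaY y * th * ((1 - t / y) ^ 2 * (y / t)) + 3 / 4 * th * ((1 - c' / y) ^ 2 * (y / c'))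
          - th * (1 - y / c') * (y / t - 1) := by
      field_simp
      ring
    rw [e1] at h2
    have h3 := h.left hlt hta hty
    have h4 := mul_le_mul_of_nonneg_right hQR (by positivity : 0 ≤ (1 - t / y) ^ 2 * (y / t))
    linarith
  rcases le_total a c with hac | hac
  · exact hpt c hac hcy
  · have hkey : th * (1 - y / c') ≤ (QY τ y P + Rr / 2) * (1 - (a / y) ^ 2) := by
      have e1 := etaY_mul hy0.le
      rw [← hus] at e1
      have hq : 0 ≤ 1 - (a / y) ^ 2 := by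
        have h1 : a / y ≤ 1 := (div_le_one hy0).2 hay.le
        have h2 : 0 ≤ a / y := by positivity
        nlinarith
      have h1 := mul_le_mul_of_nonneg_right hQR hq
      have h2 : etaY y * th * (1 - (a / y) ^ 2) = th * (1 - y) := by
        rw [← e1]; ring
      have h3 := mul_le_mul_of_nonneg_left hξ1 hth0
      linarith
    have h1 := h.low hlt hRr hkey hc hac
    rw [← ha] at h1
    have h2 := hpt a le_rfl hay.le
    linarith

/-- `u = c/y`, `D = 3/4 + y²/4`, `c₁ = y³/D`. -/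
theorem TwoH.core (h : TwoH τ y P Fp S f φ) {A Pi Rr : ℝ}
    (hRr : 0 ≤ Rr) (hPi : Pi ≤ y * A)
    (I4a : 3 / 4 * (A - Pi / 2) ≤ Fp + Rr / 2)
    (I4b : 3 / 4 * (A - Pi * (1 + y) / (2 * y)) ≤ Fp + Rr / 2)
    (I5a : A - Pi / 2 ≤ 3 / 4 * (1 + y) * (3 / 4 + y ^ 2 / 4 + y ^ 2)
      * (P / ((3 / 4 + y ^ 2 / 4) ^ 2 - τ * y ^ 6) + Rr / (2 * (3 / 4 + y ^ 2 / 4) ^ 2)))
    (I5b : A - Pi * (1 + y) / (2 * y) ≤ 3 / 4 * (1 + y) * (3 / 4 + y ^ 2 / 4 + y ^ 2)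
      * (P / ((3 / 4 + y ^ 2 / 4) ^ 2 - τ * y ^ 6) + Rr / (2 * (3 / 4 + y ^ 2 / 4) ^ 2)))
    (hA : 0 < A)
    {c c' : ℝ} (hc : 0 < c) (hc1 : c ≤ 1) (hc' : 0 < c') (hc1' : c' ≤ 1) (hcc : c ≤ c') :
    0 ≤ Bg y P S f c + Bg y P S f c'
      + Rr / 2 * ((1 - c / y) ^ 2 * (y / c) + (1 - c' / y) ^ 2 * (y / c'))
      + (1 - c / y) * (1 - c' / y) * (y / c) * (y / c') * (A - Pi / 2 * (c / y + c' / y)) := by
  have hy0 := h.y0
  have hr1 : 0 ≤ Rr / 2 * ((1 - c / y) ^ 2 * (y / c) + (1 - c' / y) ^ 2 * (y / c')) := by positivity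
  have hu1 : c / y + c' / y ≤ 2 / y := by
    rw [← add_div]
    exact div_le_div_of_nonneg_right (by linarith) hy0.le
  have hbr : 0 ≤ A - Pi / 2 * (c / y + c' / y) := by
    rcases le_or_gt Pi 0 with h | h
    · have : Pi / 2 * (c / y + c' / y) ≤ 0 :=
        mul_nonpos_of_nonpos_of_nonneg (by linarith) (by positivity)
      linarith
    · have h2 : Pi / 2 * (c / y + c' / y) ≤ Pi / 2 * (2 / y) :=
        mul_le_mul_of_nonneg_left hu1 (by linarith)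
      have h3 : Pi / 2 * (2 / y) = Pi / y := by ring
      have h4 : Pi / y ≤ A := by rw [div_le_iff₀ hy0]; linarith
      linarith
  rcases le_or_gt 0 ((1 - c / y) * (1 - c' / y)) with hs | hs
  · have h1 := h.Bg_nonneg hc hc1
    have h2 := h.Bg_nonneg hc' hc1'
    have h3 : 0 ≤ (1 - c / y) * (1 - c' / y) * (y / c) * (y / c')
        * (A - Pi / 2 * (c / y + c' / y)) :=
      mul_nonneg (mul_nonneg (mul_nonneg hs (by positivity)) (by positivity)) hbr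
    linarith
  have hcy : c < y := by
    by_contra hcon
    rw [not_lt] at hcon
    have h1 : 1 ≤ c / y := (one_le_div hy0).2 hcon
    have h2 : 1 ≤ c' / y := (one_le_div hy0).2 (hcon.trans hcc)
    have := mul_nonneg_of_nonpos_of_nonpos (sub_nonpos.2 h1) (sub_nonpos.2 h2)
    linarith
  have hyc' : y < c' := by
    by_contra hcon
    rw [not_lt] at hcon
    have h1 : c / y ≤ 1 := (div_le_one hy0).2 hcy.le
    have h2 : c' / y ≤ 1 := (div_le_one hy0).2 hcon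
    have := mul_nonneg (sub_nonneg.2 h1) (sub_nonneg.2 h2)
    linarith
  obtain ⟨th, hth, hth4, hth5⟩ : ∃ th : ℝ, A - Pi / 2 * (c / y + c' / y) ≤ th ∧
      3 / 4 * th ≤ Fp + Rr / 2 ∧ th ≤ 3 / 4 * (1 + y) * (3 / 4 + y ^ 2 / 4 + y ^ 2)
      * (P / ((3 / 4 + y ^ 2 / 4) ^ 2 - τ * y ^ 6) + Rr / (2 * (3 / 4 + y ^ 2 / 4) ^ 2)) := by
    rcases le_or_gt 0 Pi with h | h
    · refine ⟨A - Pi / 2, ?_, I4a, I5a⟩
      have h1 : 1 ≤ c / y + c' / y := by
        have := (one_le_div hy0).2 hyc'.le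
        have : 0 < c / y := by positivity
        linarith
      have := mul_le_mul_of_nonneg_left h1 (by linarith : 0 ≤ Pi / 2)
      linarith
    · refine ⟨A - Pi * (1 + y) / (2 * y), ?_, I4b, I5b⟩
      have h1 : c / y + c' / y ≤ 1 + 1 / y := by
        have h2 := (div_le_one hy0).2 hcy.le
        have h3 := div_le_div_of_nonneg_right hc1' hy0.le
        linarith
      have h2 := mul_le_mul_of_nonpos_left h1 (by linarith : Pi / 2 ≤ 0)
      have e : Pi * (1 + y) / (2 * y) = Pi / 2 * (1 + 1 / y) := by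
        field_simp
        ring
      rw [e]
      linarith
  have hth0 : 0 ≤ th := hbr.trans hth
  have h1 := h.opp hRr hth0 hth4 hth5 hc hcy.le hyc' hc1'
  have e1 : (1 - c / y) * (1 - c' / y) * (y / c) * (y / c') = -((1 - y / c') * (y / c - 1)) := by
    field_simp
    ring
  have h2 : 0 ≤ (1 - y / c') * (y / c - 1) := by
    refine mul_nonneg ?_ ?_
    · rw [sub_nonneg, div_le_one hc']; exact hyc'.le
    · rw [sub_nonneg, one_le_div hc]; exact hcy.le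
  have h3 := mul_le_mul_of_nonneg_left hth h2
  rw [e1]
  linarith

end Vale.Agent.Lib.P219.Lin
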